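import Vale.Agent.P204.R.Near

/-!
P204 R/Op. The averaging operator of a family `F : Fl r`.
Plan: integrability: `integrable_pint` with `Φ y = N (t • y.1, y.2) (s (Ψ (t • y.1, y.2)))` on the open set
`{y | (t • y.1, y.2) ∈ U}`, `K = closedBall 0 1`, using `F.maps`, `F.supp`. `op_smooth`: `contDiffOn_pint`.
`op_ck`: `ContinuousLinearMap.integral_comp_comm`, `integral_sub`.
`op_sjb`: `sjb_pint` with `W = ball 0 r`, constant bound; pointwise `SJB.clm_apply`, `SJB.comp` (with `near k`),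
`SJB.scale`, `JB_iff_SJB`.
-/

namespace Vale.Agent.P204

open scoped ContDiff Topology
open Metric MeasureTheory Set Filter

noncomputable section

namespace Fl

variable {r : ℝ} {F : Fl r}

theorem cont_ROp (t : ℝ) : ContDiff ℝ ∞ fun y : F.V × E => (t • y.1, y.2) :=
  (contDiff_fst.const_smul t).prodMk contDiff_snd

theorem Ok.int_ROp {G : Type} [NormedAddCommGroup G] [NormedSpace ℝ G] [CompleteSpace G] {t : ℝ}
    (h : F.Ok t) {Φ : F.V × E → G} (hΦ : ContinuousOn Φ F.U) {q : E}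
    (hq : q ∈ closedBall (0 : E) r) : Integrable (fun v => Φ (t • v, q)) F.P := by
  have := FiniteDimensional.proper_real F.V
  exact integrable_pint (Φ := fun y : F.V × E => Φ (t • y.1, y.2))
    (U := (fun y : F.V × E => (t • y.1, y.2)) ⁻¹' F.U) F.P (isCompact_closedBall (0 : F.V) 1) F.supp
    (hΦ.comp (cont_ROp t).continuous.continuousOn fun _ hy => hy) fun v hv => h v hv q hq

theorem Ok.op_int {t : ℝ} (h : F.Ok t) {N : F.V × E → Bil →L[ℝ] Bil} (hN : ContinuousOn N F.U)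
    {s : E → Bil} (hs : ContinuousOn s (ball 0 4)) {q : E} (hq : q ∈ closedBall (0 : E) r) :
    Integrable (fun v => N (t • v, q) (s (F.Ψ (t • v, q)))) F.P :=
  h.int_ROp (Φ := fun y => N y (s (F.Ψ y)))
    (hN.clm_apply (hs.comp F.smooth.continuousOn fun y hy => (F.maps y hy).1)) hq

theorem Ok.avg_int {G : Type} [NormedAddCommGroup G] [NormedSpace ℝ G] [CompleteSpace G] {t : ℝ}
    (h : F.Ok t) {f : E → G} (hf : ContinuousOn f (ball 0 4)) {q : E}
    (hq : q ∈ closedBall (0 : E) r) : Integrable (fun v => f (F.Ψ (t • v, q))) F.P :=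
  h.int_ROp (Φ := fun y => f (F.Ψ y))
    (hf.comp F.smooth.continuousOn fun y hy => (F.maps y hy).1) hq

theorem smooth_ROp (t : ℝ) {N : F.V × E → Bil →L[ℝ] Bil} (hN : ContDiffOn ℝ ∞ N F.U) {s : E → Bil}
    (hs : ContDiffOn ℝ ∞ s (ball 0 4)) :
    ContDiffOn ℝ ∞ (fun y : F.V × E => N (t • y.1, y.2) (s (F.Ψ (t • y.1, y.2))))
      ((fun y : F.V × E => (t • y.1, y.2)) ⁻¹' F.U) := by
  have h1 : ContDiffOn ℝ ∞ (fun y => N y (s (F.Ψ y))) F.U :=
    hN.clm_apply (hs.comp F.smooth fun y hy => (F.maps y hy).1)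
  exact h1.comp (cont_ROp t).contDiffOn fun _ hy => hy

theorem Ok.op_smooth {t : ℝ} (h : F.Ok t) {N : F.V × E → Bil →L[ℝ] Bil}
    (hN : ContDiffOn ℝ ∞ N F.U) {s : E → Bil} (hs : ContDiffOn ℝ ∞ s (ball 0 4)) :
    ContDiffOn ℝ ∞ (F.op N t s) (ball 0 r) := by
  have := FiniteDimensional.proper_real F.V
  exact contDiffOn_pint F.P (isCompact_closedBall (0 : F.V) 1) F.supp
    (F.isOpen.preimage (cont_ROp t).continuous) (smooth_ROp t hN hs) isOpen_ball
    fun y hy => h _ hy.1 _ (ball_subset_closedBall hy.2)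

/-- the commutator of the average with the anti-invariant projection -/
theorem Ok.op_ck {t : ℝ} (h : F.Ok t) {J : E → End} (hJ : ContDiffOn ℝ ∞ J (ball 0 4))
    {s : E → Bil} (hs : ContinuousOn s (ball 0 4)) {q : E} (hq : q ∈ closedBall (0 : E) r) :
    pm (J q) (F.op F.pb t s q) - F.op F.pb t (fun x => pm (J x) (s x)) q = F.op (F.ck J) t s q := by
  have h1 := h.op_int F.pb_smooth.continuousOn hs hq
  have h2 := h.op_int (s := fun x => pm (J x) (s x)) F.pb_smooth.continuousOn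
    ((contDiff_pm.comp_contDiffOn hJ).continuousOn.clm_apply hs) hq
  rw [op, op, op, ← ContinuousLinearMap.integral_comp_comm _ h1,
    ← integral_sub ((pm (J q)).integrable_comp h1) h2]
  rfl

variable (F)

theorem op_sjb (k : ℕ) : ∃ C ≥ 1, ∀ᶠ t in 𝓝[>] (0 : ℝ), ∀ N : F.V × E → Bil →L[ℝ] Bil,
    ContDiffOn ℝ ∞ N F.U → ∀ s : E → Bil, ContDiffOn ℝ ∞ s (ball 0 4) → ∀ p ∈ ball (0 : E) r,
    ∀ σ ∈ Ioc (0 : ℝ) 1, ∀ μ M : ℝ,
    (∀ v ∈ closedBall (0 : F.V) 1, JB (fun q => N (t • v, q)) k p μ) →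
    (∀ q ∈ closedBall p (C * t), SJB s k σ q M) → SJB (F.op N t s) k σ p (C * μ * M) := by
  have := FiniteDimensional.proper_real F.V
  obtain ⟨C, hC, hn⟩ := F.near k
  have h2k : (1 : ℝ) ≤ 2 ^ k := one_le_pow₀ (by norm_num)
  have hf : (1 : ℝ) ≤ k.factorial := by exact_mod_cast k.factorial_pos
  have hCk : 1 ≤ C ^ k := one_le_pow₀ hC
  have hB : (1 : ℝ) ≤ 2 ^ k * (k.factorial * C ^ k) :=
    one_le_mul_of_one_le_of_one_le h2k (one_le_mul_of_one_le_of_one_le hf hCk)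
  refine ⟨C * (2 ^ k * (k.factorial * C ^ k)), one_le_mul_of_one_le_of_one_le hC hB, ?_⟩
  filter_upwards [hn, F.ev_ok, ev_le 1 one_pos] with t h1 h2 h3 N hN s hs p hp σ hσ μ M hμ hM
  have hp' := ball_subset_closedBall hp
  have hμ0 : 0 ≤ μ := ((JB_iff_SJB _ _ _ _).1 (hμ 0 (mem_closedBall_self zero_le_one))).nonneg
  have hCt : C * t ≤ C * (2 ^ k * (k.factorial * C ^ k)) * t :=
    mul_le_mul_of_nonneg_right (le_mul_of_one_le_right (by linarith) hB) h3.1.le
  have hM0 : 0 ≤ M := (hM p (mem_closedBall_self (le_trans (by have := h3.1; positivity) hCt))).nonneg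
  have hpt : ∀ v ∈ closedBall (0 : F.V) 1,
      SJB (fun q => N (t • v, q) (s (F.Ψ (t • v, q)))) k σ p
        (C * (2 ^ k * (k.factorial * C ^ k)) * μ * M) := by
    intro v hv
    obtain ⟨hU, -, hd, -, hi⟩ := h1 v hv p hp'
    have hpr : ContDiffAt ℝ ∞ (fun q : E => (t • v, q)) p := contDiffAt_const.prodMk contDiffAt_id
    have hN1 : ContDiffAt ℝ ∞ (fun q => N (t • v, q)) p :=
      ContDiffAt.comp (g := N) p (hN.contDiffAt (F.isOpen.mem_nhds hU)) hpr
    have hΨ : ContDiffAt ℝ ∞ (fun q => F.Ψ (t • v, q)) p :=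
      ContDiffAt.comp (g := F.Ψ) p (F.smooth.contDiffAt (F.isOpen.mem_nhds hU)) hpr
    have hs1 : ContDiffAt ℝ ∞ s (F.Ψ (t • v, p)) :=
      hs.contDiffAt (isOpen_ball.mem_nhds (F.maps _ hU).1)
    have h4 : SJB (fun q => s (F.Ψ (t • v, q))) k σ p (k.factorial * C ^ k * M) :=
      SJB.comp (g := s) (φ := fun q => F.Ψ (t • v, q)) hσ.1 hσ.2 hs1 hΨ
        (hM _ (by rw [mem_closedBall, dist_eq_norm]; exact hd.trans hCt)) hC hi
    have h5 := SJB.clm_apply hσ.1.le hN1 (hs1.comp p hΨ)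
      (((JB_iff_SJB _ _ _ _).1 (hμ v hv)).scale hσ.1.le hσ.2) h4
    refine h5.mono le_rfl ?_
    have h6 : 0 ≤ 2 ^ k * (k.factorial * C ^ k) * μ * M := by positivity
    calc _ = 1 * (2 ^ k * (k.factorial * C ^ k) * μ * M) := by ring
      _ ≤ C * (2 ^ k * (k.factorial * C ^ k) * μ * M) := mul_le_mul_of_nonneg_right hC h6
      _ = _ := by ring
  have h7 := sjb_pint (Φ := fun y : F.V × E => N (t • y.1, y.2) (s (F.Ψ (t • y.1, y.2)))) F.P
    (isCompact_closedBall (0 : F.V) 1) F.supp (F.isOpen.preimage (cont_ROp t).continuous)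
    (smooth_ROp t hN hs) isOpen_ball (fun y hy => h2 _ hy.1 _ (ball_subset_closedBall hy.2)) hp
    hσ.1.le (integrable_const _) (F.supp.mono hpt)
  rw [integral_const, probReal_univ, one_smul] at h7
  exact h7

end Fl

end

end Vale.Agent.P204
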