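import Vale.Agent.P204.R.Flat
import Vale.Agent.P204.R.Op

/-!
P204 R/Avg1. The regularisation in chart `l` is an average of pull-backs in chart `j`.
Plan: `V = E`, `P = P1`, `Ψ (v, q) = if q ∈ O j l then τ l j (psi v (τ j l q)) else q`, `r < r₁ < 4`,
`U = U₁ ∪ U₂` with `U₁ = {y | y.2 ∈ O j l ∧ psi y.1 (τ j l y.2) ∈ O l j}` (open:
`ContinuousOn.isOpen_inter_preimage`) and `U₂ = univ ×ˢ (ball 0 r₁ \ ov j l r₁ (7/2))` (open by `haus`), on which
`Ψ y = y.2` (`aB_supp`, `τ_inv`). Smoothness: `contDiffOn_of_locally..` or pointwise `ContDiffAt` with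
`ContDiffAt.congr_of_eventuallyEq`. Formula for `t ≤ min δ (1/4)`, `δ` from `lip (7/2) r`: if `q ∉ O j l` then
`(t • v, q) ∈ U₂`, `jet3_d Ψ = id` there, `reg1_out`. If `q ∈ O j l` then `(t • v, q) ∈ U₁` for `‖v‖ ≤ 1`
(if `τ q ∈ closedBall 0 (7/2)` then `τ q ∈ ov l j (7/2) r`, `lip`, `norm_psi_sub`; else `psi v (τ q) = τ q`);
`reg1_in`, `ContinuousLinearMap.integral_comp_comm` with `flat_integrable`, `integral_congr_ae` with `P1_supp`,
`Form.compat`, `pullL_comp`, chain rule and `HasFDerivAt.unique` with `jet3_has`.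
-/

namespace Vale.Agent.P204

open scoped ContDiff Topology
open Metric MeasureTheory Set Filter

noncomputable section

namespace Atlas

variable {𝒜 : Atlas}

open Classical in
/-- the cut-off translation of chart `l` read in chart `j` -/
def psiJ (l j : Fin 𝒜.n) (y : E × E) : E :=
  if y.2 ∈ 𝒜.O j l then 𝒜.τ l j (psi y.1 (𝒜.τ j l y.2)) else y.2

/-- where the formula is used -/
def uIn (l j : Fin 𝒜.n) : Set (E × E) :=
  {y | y.2 ∈ 𝒜.O j l ∧ psi y.1 (𝒜.τ j l y.2) ∈ 𝒜.O l j}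

/-- where the map is the identity -/
def uOut (l j : Fin 𝒜.n) (r : ℝ) : Set (E × E) := {y | y.2 ∈ ball (0 : E) r \ 𝒜.ov j l r (7 / 2)}

theorem inner_RAvg1 (l j : Fin 𝒜.n) :
    ContDiffOn ℝ ∞ (fun y : E × E => psi y.1 (𝒜.τ j l y.2)) (Prod.snd ⁻¹' 𝒜.O j l) :=
  contDiff_psi.comp_contDiffOn (f := fun y : E × E => (y.1, 𝒜.τ j l y.2))
    (contDiffOn_fst.prodMk ((𝒜.τ_smooth j l).comp contDiffOn_snd fun _ h => h))

theorem uIn_open (l j : Fin 𝒜.n) : IsOpen (uIn l j) :=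
  (inner_RAvg1 l j).continuousOn.isOpen_inter_preimage
    ((𝒜.isOpen_O j l).preimage continuous_snd) (𝒜.isOpen_O l j)

theorem uOut_open (l j : Fin 𝒜.n) {r : ℝ} (hr : r < 4) : IsOpen (uOut l j r) :=
  (isOpen_ball.sdiff (𝒜.haus j l r (7 / 2) hr (by norm_num))).preimage continuous_snd

theorem psiJ_in {l j : Fin 𝒜.n} {y : E × E} (h : y ∈ uIn l j) :
    psiJ l j y = 𝒜.τ l j (psi y.1 (𝒜.τ j l y.2)) := if_pos h.1

theorem psi_fix_RAvg1 (v : E) {q : E} (hq : q ∉ closedBall (0 : E) (7 / 2)) : psi v q = q :=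
  (psi_out v hq).eq_of_nhds

theorem psiJ_out {l j : Fin 𝒜.n} {r : ℝ} {y : E × E} (h : y ∈ uOut l j r) : psiJ l j y = y.2 := by
  unfold psiJ
  split_ifs with h1
  · rw [psi_fix_RAvg1 _ fun h2 => h.2 ⟨ball_subset_closedBall h.1, h1, h2⟩, τ_inv j l h1]
  · rfl

theorem psiJ_smooth (l j : Fin 𝒜.n) {r : ℝ} (hr : r < 4) :
    ContDiffOn ℝ ∞ (psiJ l j) (uIn l j ∪ uOut l j r) := by
  rintro y (h | h)
  · have h1 : ContDiffOn ℝ ∞ (psiJ l j) (uIn l j) :=
      ((𝒜.τ_smooth l j).comp ((inner_RAvg1 l j).mono fun _ h => h.1) fun _ h => h.2).congr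
        fun _ h => psiJ_in h
    exact (h1.contDiffAt ((uIn_open l j).mem_nhds h)).contDiffWithinAt
  · have h1 : ContDiffOn ℝ ∞ (psiJ l j) (uOut l j r) := contDiffOn_snd.congr fun _ h => psiJ_out h
    exact (h1.contDiffAt ((uOut_open l j hr).mem_nhds h)).contDiffWithinAt

/-- the family attached to `reg1 l` in chart `j` -/
def fl1 (l j : Fin 𝒜.n) {r r₁ : ℝ} (h : r < r₁) (h' : r₁ < 4) : Fl r where
  V := E
  P := P1
  supp := P1_supp
  pos := fun _ hd => P1_pos hd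
  U := uIn l j ∪ uOut l j r₁
  Ψ := psiJ l j
  isOpen := (uIn_open l j).union (uOut_open l j h')
  sub := fun q hq => by
    by_cases h1 : q ∈ 𝒜.O j l
    · exact Or.inl ⟨h1, by rw [psi_zero]; exact 𝒜.maps j l q h1⟩
    · exact Or.inr ⟨closedBall_subset_ball h hq, fun h2 => h1 h2.2.1⟩
  smooth := psiJ_smooth l j h'
  zero := fun q => by
    unfold psiJ
    split_ifs with h1
    · rw [psi_zero, τ_inv j l h1]
    · rfl
  maps := by
    rintro y (hy | hy)
    · exact ⟨by rw [psiJ_in hy]; exact τ_mem l j hy.2, 𝒜.O_sub j l hy.1⟩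
    · have h1 := ball_subset_ball h'.le hy.1
      exact ⟨by rw [psiJ_out hy]; exact h1, h1⟩

theorem psiJ_has_in {l j : Fin 𝒜.n} {v q : E} (h : (v, q) ∈ uIn l j) :
    HasFDerivAt (fun q => psiJ l j (v, q)) ((fderiv ℝ (𝒜.τ l j) (psi v (𝒜.τ j l q))).comp
      ((fderiv ℝ (psi v) (𝒜.τ j l q)).comp (fderiv ℝ (𝒜.τ j l) q))) q := by
  have h1 := ((τ_contDiffAt j l h.1).differentiableAt (by simp)).hasFDerivAt
  have h2 : DifferentiableAt ℝ (psi v) (𝒜.τ j l q) :=
    ((contDiff_psi.comp (contDiff_const.prodMk contDiff_id)).differentiable (by simp)) _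
  have h3 := ((τ_contDiffAt l j h.2).differentiableAt (by simp)).hasFDerivAt
  refine (h3.comp q (h2.hasFDerivAt.comp q h1)).congr_of_eventuallyEq ?_
  filter_upwards [(Continuous.prodMk_right v).continuousAt.preimage_mem_nhds
    ((uIn_open l j).mem_nhds h)] with x hx
  exact psiJ_in hx

theorem psiJ_has_out {l j : Fin 𝒜.n} {r : ℝ} (hr : r < 4) {v q : E} (h : (v, q) ∈ uOut l j r) :
    HasFDerivAt (fun q => psiJ l j (v, q)) (ContinuousLinearMap.id ℝ E) q := by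
  refine (hasFDerivAt_id q).congr_of_eventuallyEq ?_
  filter_upwards [(Continuous.prodMk_right v).continuousAt.preimage_mem_nhds
    ((uOut_open l j hr).mem_nhds h)] with x hx
  exact psiJ_out hx

theorem avg_reg1 (l j : Fin 𝒜.n) : Avg (fun t => 𝒜.reg1 l t) j := by
  intro r hr
  obtain ⟨r₁, h1, h2⟩ := exists_between hr
  obtain ⟨δ, hδ, L, -, hL⟩ := lip (𝒜 := 𝒜) (r := 7 / 2) (r' := r) (by norm_num) hr
  refine ⟨fl1 l j h1 h2, ?_⟩
  filter_upwards [ev_le 1 hδ, ev_le 1 (c := 1 / 4) (by norm_num)] with t k1 k2 β q hq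
  rw [one_mul] at k1 k2
  change _ = ∫ v, pullL (jet3_d (psiJ l j) (t • v, q)) (β.1 j (psiJ l j (t • v, q))) ∂P1
  by_cases h : q ∈ 𝒜.O j l
  · rw [reg1_in k2 l j β h, flat, ← ContinuousLinearMap.integral_comp_comm _
      (flat_integrable k2 (Form.smooth β l).continuousOn (τ_mem j l h))]
    refine integral_congr_ae (P1_supp.mono fun v hv => ?_)
    have h3 : (t • v, q) ∈ uIn l j := by
      refine ⟨h, ?_⟩
      by_cases h4 : 𝒜.τ j l q ∈ closedBall (0 : E) (7 / 2)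
      · refine (hL l j _ ⟨h4, 𝒜.maps j l q h, by rwa [τ_inv j l h]⟩ _ ?_).1
        rw [dist_eq_norm]
        refine (norm_psi_sub _ _).trans ?_
        rw [norm_smul, Real.norm_of_nonneg k1.1.le]
        exact (mul_le_of_le_one_right k1.1.le (mem_closedBall_zero_iff.1 hv)).trans k1.2
      · rw [psi_fix_RAvg1 _ h4]
        exact 𝒜.maps j l q h
    have h5 := ((fl1 l j h1 h2).has (Or.inl h3)).unique (psiJ_has_in h3)
    change jet3_d (psiJ l j) (t • v, q) = _ at h5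
    simp only []
    rw [h5, psiJ_in h3, Form.compat β l j h3.2, pullL_comp, pullL_comp]
  · have h3 : ∀ v : E, (t • v, q) ∈ uOut l j r₁ := fun v =>
      ⟨closedBall_subset_ball h1 hq, fun h2 => h h2.2.1⟩
    have h4 : ∀ v : E, pullL (jet3_d (psiJ l j) (t • v, q)) (β.1 j (psiJ l j (t • v, q))) =
        β.1 j q := fun v => by
      have h5 := ((fl1 l j h1 h2).has (Or.inr (h3 v))).unique (psiJ_has_out h2 (h3 v))
      change jet3_d (psiJ l j) (t • v, q) = _ at h5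
      rw [h5, psiJ_out (h3 v), pullL_id]
    rw [reg1_out k2 l j β h]
    simp only [h4, integral_const, probReal_univ, one_smul]

end Atlas

end

end Vale.Agent.P204
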