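import Vale.Agent.P204.R.Op

/-!
P204 R/AvgC. The class `Avg` contains the identity and is closed under composition.
Plan: identity: `V = E`, `P = dirac 0`, `Ψ = snd`, `U = univ ×ˢ ball 0 4`. Composition at radius `r`: take `F : Fl r`
for `L`, `F' : Fl r'` for `L'`, `r < r' < 4`; `V × V'` (sup norm, `closedBall_prod_same`), `P.prod P'`,
`Ψ ((v, v'), q) = F'.Ψ (v', F.Ψ (v, q))`, `U = {y | (y.1.1, y.2) ∈ F.U ∧ (y.1.2, F.Ψ (y.1.1, y.2)) ∈ F'.U}`.
For small `t`, `F.Ψ (t • v, q) ∈ closedBall 0 r'` (`Fl.near`), so the inner formula applies;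
`ContinuousLinearMap.integral_comp_comm`, `integral_prod` (integrability: `Fl.Ok.op_int` for the new family, which is
`Ok` by `Fl.ev_ok`), chain rule (`Fl.has`, `HasFDerivAt.unique`) and `pullL_comp`.
-/

namespace Vale.Agent.P204

open scoped ContDiff Topology
open Metric MeasureTheory Set Filter

noncomputable section

/-- the trivial family -/
def flId_RAvgC {r : ℝ} (hr : r < 4) : Fl r where
  V := E
  P := Measure.dirac 0
  supp := by simp
  pos d hd := by
    rw [Measure.real, Measure.dirac_apply_of_mem (mem_closedBall_self hd.le)]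
    simp
  U := univ ×ˢ ball 0 4
  Ψ := Prod.snd
  isOpen := isOpen_univ.prod isOpen_ball
  sub q hq := ⟨mem_univ _, closedBall_subset_ball hr hq⟩
  smooth := contDiff_snd.contDiffOn
  zero _ := rfl
  maps y hy := ⟨hy.2, hy.2⟩

instance {r : ℝ} (F : Fl r) : SecondCountableTopology F.V :=
  haveI := FiniteDimensional.proper_real F.V
  inferInstance

theorem comp_smooth_RAvgC {r r' : ℝ} (F : Fl r) (F' : Fl r') :
    ContDiffOn ℝ ∞ (fun y : (F.V × F'.V) × E => (y.1.2, F.Ψ (y.1.1, y.2)))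
      ((fun y : (F.V × F'.V) × E => (y.1.1, y.2)) ⁻¹' F.U) :=
  contDiff_fst.snd.contDiffOn.prodMk
    (F.smooth.comp (contDiff_fst.fst.prodMk contDiff_snd).contDiffOn fun _ hy => hy)

/-- composition of two families -/
def flComp_RAvgC {r r' : ℝ} (F : Fl r) (F' : Fl r') (hr : r ≤ r') : Fl r where
  V := F.V × F'.V
  P := F.P.prod F'.P
  supp := by
    filter_upwards [Measure.quasiMeasurePreserving_fst.ae F.supp,
      Measure.quasiMeasurePreserving_snd.ae F'.supp] with v h1 h2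
    rw [show (0 : F.V × F'.V) = (0, 0) from rfl, ← closedBall_prod_same]
    exact ⟨h1, h2⟩
  pos d hd := by
    rw [show (0 : F.V × F'.V) = (0, 0) from rfl, ← closedBall_prod_same, measureReal_prod_prod]
    exact mul_pos (F.pos d hd) (F'.pos d hd)
  U := (fun y => (y.1.1, y.2)) ⁻¹' F.U ∩ (fun y => (y.1.2, F.Ψ (y.1.1, y.2))) ⁻¹' F'.U
  Ψ y := F'.Ψ (y.1.2, F.Ψ (y.1.1, y.2))
  isOpen := (comp_smooth_RAvgC F F').continuousOn.isOpen_inter_preimage
    (F.isOpen.preimage (by fun_prop)) F'.isOpen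
  sub q hq := ⟨F.sub q hq, by
    show ((0 : F'.V), F.Ψ (0, q)) ∈ F'.U
    rw [F.zero]
    exact F'.sub q (closedBall_subset_closedBall hr hq)⟩
  smooth := F'.smooth.comp ((comp_smooth_RAvgC F F').mono inter_subset_left) fun _ hy => hy.2
  zero q := by
    show F'.Ψ (0, F.Ψ (0, q)) = q
    rw [F.zero, F'.zero]
  maps y hy := ⟨(F'.maps _ hy.2).1, (F.maps _ hy.1).2⟩

theorem flComp_pb_RAvgC {r r' : ℝ} (F : Fl r) (F' : Fl r') (hr : r ≤ r') (v : F.V) (v' : F'.V)
    (q : E) (h : (v, q) ∈ F.U) (h' : (v', F.Ψ (v, q)) ∈ F'.U) (b : Bil) :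
    (flComp_RAvgC F F' hr).pb ((v, v'), q) b = F.pb (v, q) (F'.pb (v', F.Ψ (v, q)) b) := by
  have h1 := (flComp_RAvgC F F' hr).has (v := (v, v')) (q := q) ⟨h, h'⟩
  have h2 := (F'.has h').comp q (F.has h)
  have h3 := h1.unique h2
  rw [Fl.pb, Fl.pb, Fl.pb, pullL_comp, h3]

namespace Atlas

variable {𝒜 : Atlas}

theorem avg_id (j : Fin 𝒜.n) : Avg (fun _ => (LinearMap.id : 𝒜.Form →ₗ[ℝ] 𝒜.Form)) j := by
  intro r hr
  refine ⟨flId_RAvgC hr, Eventually.of_forall fun t β q hq => ?_⟩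
  have h1 := (flId_RAvgC hr).has (v := (t • (0 : E) : E)) (q := q)
    ⟨mem_univ _, closedBall_subset_ball hr hq⟩
  have h2 := h1.unique (hasFDerivAt_id q)
  show β.1 j q = ∫ v : E, (flId_RAvgC hr).pb (t • v, q) (β.1 j q) ∂(Measure.dirac (0 : E))
  rw [integral_dirac, Fl.pb, h2, pullL_id]

theorem Avg.comp {L L' : ℝ → 𝒜.Form →ₗ[ℝ] 𝒜.Form} {j : Fin 𝒜.n} (h : Avg L j) (h' : Avg L' j) :
    Avg (fun t => L t ∘ₗ L' t) j := by
  intro r hr
  obtain ⟨F, hF⟩ := h r hr
  obtain ⟨F', hF'⟩ := h' ((r + 4) / 2) (by linarith)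
  have hrr : r ≤ (r + 4) / 2 := by linarith
  obtain ⟨C, -, hC⟩ := F.near 0
  refine ⟨flComp_RAvgC F F' hrr, ?_⟩
  filter_upwards [hF, hF', hC, ev_le C (show 0 < (4 - r) / 2 by linarith), F'.ev_ok,
    (flComp_RAvgC F F' hrr).ev_ok] with t h1 h2 h3 h4 h5 h6 β q hq
  have hin : ∀ v ∈ closedBall (0 : F.V) 1, F.Ψ (t • v, q) ∈ closedBall (0 : E) ((r + 4) / 2) := by
    intro v hv
    have := (h3 v hv q hq).2.2.1
    rw [mem_closedBall, dist_zero_right] at hq ⊢
    have h7 := norm_add_le (F.Ψ (t • v, q) - q) q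
    rw [sub_add_cancel] at h7
    linarith [h4.2]
  have hβ := (Form.smooth β j).continuousOn
  have hI := h6.op_int (flComp_RAvgC F F' hrr).pb_smooth.continuousOn hβ hq
  rw [LinearMap.comp_apply, h1 _ q hq]
  refine Eq.trans ?_ (integral_prod (μ := F.P) (ν := F'.P) _ hI).symm
  refine integral_congr_ae (F.supp.mono fun v hv => ?_)
  show F.pb (t • v, q) ((L' t β).1 j (F.Ψ (t • v, q))) = _
  rw [h2 β _ (hin v hv), Fl.op, ← ContinuousLinearMap.integral_comp_comm _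
    (h5.op_int F'.pb_smooth.continuousOn hβ (hin v hv))]
  refine integral_congr_ae (F'.supp.mono fun v' hv' => ?_)
  exact (flComp_pb_RAvgC F F' hrr (t • v) (t • v') q (h3 v hv q hq).1
    (h5 v' hv' _ (hin v hv)) _).symm

end Atlas

end

end Vale.Agent.P204
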