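import Vale.Agent.P204.R.Defs

/-!
P204 R/Cov. Change of variables by a map close to the identity.
Plan: `det_near`: `ContinuousLinearMap.continuous_det`. `cov_near`: `φ - id` is `1/2`-Lipschitz on the convex ball
(`Convex.norm_image_sub_le_of_norm_hasFDerivWithin_le'` or `..._le`), so `φ` is injective there and
`ApproximatesLinearOn φ id (closedBall p ρ) (1/2)`; `ApproximatesLinearOn.surjOn_closedBall_of_nonlinearRightInverse`
(with `(ContinuousLinearEquiv.refl ℝ E).toNonlinearRightInverse`) shows that the image contains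
`closedBall (φ p) (ρ/2) ⊇ closedBall p (ρ/2 - η)`; it is contained in `closedBall p (ρ + η)`.
`integral_image_eq_integral_abs_det_fderiv_smul`, `integrableOn_image_iff_integrableOn_abs_det_fderiv_smul`,
`setIntegral_mono_set`, `setIntegral_mono_on`.
-/

namespace Vale.Agent.P204

open scoped ContDiff Topology
open Metric MeasureTheory Set Filter

noncomputable section

theorem det_near : ∃ ε > 0, ε ≤ 1 / 2 ∧ ∀ A : End, ‖A - ContinuousLinearMap.id ℝ E‖ ≤ ε →
    1 / 2 ≤ A.det ∧ A.det ≤ 2 := by
  have h := (ContinuousLinearMap.continuous_det (𝕜 := ℝ) (E := E)).continuousAt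
    (x := ContinuousLinearMap.id ℝ E)
  obtain ⟨δ, hδ, h1⟩ := Metric.continuousAt_iff.1 h (1 / 2) (by norm_num)
  refine ⟨min (δ / 2) (1 / 2), by positivity, min_le_right _ _, fun A hA => ?_⟩
  have h2 := h1 (x := A) (by
    rw [dist_eq_norm]
    linarith [min_le_left (δ / 2) (1 / 2 : ℝ)])
  have h3 : (ContinuousLinearMap.id ℝ E).det = 1 := by simp [ContinuousLinearMap.det]
  rw [h3, Real.dist_eq, abs_lt] at h2
  constructor <;> linarith [h2.1, h2.2]

theorem approx_RCov {φ : E → E} {φ' : E → End} {p : E} {ρ : ℝ}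
    (h : ∀ x ∈ closedBall p ρ, HasFDerivAt φ (φ' x) x ∧
      ‖φ' x - ContinuousLinearMap.id ℝ E‖ ≤ 1 / 2) :
    ApproximatesLinearOn φ ((ContinuousLinearEquiv.refl ℝ E : E ≃L[ℝ] E) : E →L[ℝ] E)
      (closedBall p ρ) (1 / 2) := by
  intro x hx y hy
  have := (convex_closedBall p ρ).norm_image_sub_le_of_norm_hasFDerivWithin_le'
    (φ := ContinuousLinearMap.id ℝ E) (fun z hz => (h z hz).1.hasFDerivWithinAt)
    (fun z hz => (h z hz).2) hy hx
  simpa using this

theorem cov_near : ∃ ε > 0, ∀ (φ : E → E) (φ' : E → End) (p : E) (ρ η : ℝ) (f : E → ℝ), 0 ≤ ρ →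
    (∀ x ∈ closedBall p ρ, HasFDerivAt φ (φ' x) x ∧ ‖φ' x - ContinuousLinearMap.id ℝ E‖ ≤ ε ∧
      ‖φ x - x‖ ≤ η) → ContinuousOn f (closedBall p (ρ + η)) → (∀ x, 0 ≤ f x) →
    ∫ x in closedBall p ρ, f (φ x) ≤ 2 * ∫ x in closedBall p (ρ + η), f x ∧
    ∫ x in closedBall p (ρ / 2 - η), f x ≤ 2 * ∫ x in closedBall p ρ, f (φ x) := by
  obtain ⟨ε, hε, hε', hd⟩ := det_near
  refine ⟨ε, hε, fun φ φ' p ρ η f hρ h hf f0 => ?_⟩
  have ap := approx_RCov (fun x hx => ⟨(h x hx).1, (h x hx).2.1.trans hε'⟩)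
  have hinj : InjOn φ (closedBall p ρ) := ap.injOn (Or.inr (by
    rw [← NNReal.coe_lt_coe]
    simp
    norm_num))
  have hder : ∀ x ∈ closedBall p ρ, HasFDerivWithinAt φ (φ' x) (closedBall p ρ) x :=
    fun x hx => (h x hx).1.hasFDerivWithinAt
  have hm : MapsTo φ (closedBall p ρ) (closedBall p (ρ + η)) := fun x hx => by
    have h1 := (h x hx).2.2
    rw [mem_closedBall] at hx ⊢
    rw [← dist_eq_norm] at h1
    linarith [dist_triangle (φ x) x p]
  have hsub : closedBall p (ρ / 2 - η) ⊆ φ '' closedBall p ρ := by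
    have s1 := ap.surjOn_closedBall_of_nonlinearRightInverse
      (ContinuousLinearEquiv.refl ℝ E).toNonlinearRightInverse hρ Subset.rfl
    refine Subset.trans (closedBall_subset_closedBall' ?_) s1
    have h1 := (h p (mem_closedBall_self hρ)).2.2
    have h2 : (((ContinuousLinearEquiv.refl ℝ E).toNonlinearRightInverse).nnnorm : ℝ) = 1 := by
      simp [ContinuousLinearEquiv.toNonlinearRightInverse]
    rw [h2, dist_comm, dist_eq_norm]
    push_cast
    linarith
  have i1 : IntegrableOn f (closedBall p (ρ + η)) := hf.integrableOn_compact (isCompact_closedBall _ _)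
  have i2 : IntegrableOn f (φ '' closedBall p ρ) := i1.mono_set hm.image_subset
  have i3 := (integrableOn_image_iff_integrableOn_abs_det_fderiv_smul volume
    measurableSet_closedBall hder hinj f).1 i2
  have i4 : IntegrableOn (fun x => f (φ x)) (closedBall p ρ) :=
    (hf.comp (fun x hx => (hder x hx).continuousWithinAt) hm).integrableOn_compact
      (isCompact_closedBall _ _)
  have e1 := integral_image_eq_integral_abs_det_fderiv_smul volume measurableSet_closedBall hder
    hinj f
  have ab : ∀ x ∈ closedBall p ρ, 1 / 2 ≤ |(φ' x).det| ∧ |(φ' x).det| ≤ 2 := fun x hx => by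
    have := hd _ (h x hx).2.1
    rw [abs_of_nonneg (by linarith [this.1])]
    exact this
  have n0 : ∀ s : Set E, 0 ≤ᵐ[volume.restrict s] f := fun s => ae_of_all _ f0
  constructor
  · refine le_trans ?_ (mul_le_mul_of_nonneg_left
      (setIntegral_mono_set i1 (n0 _) hm.image_subset.eventuallyLE) zero_le_two)
    rw [e1, ← integral_const_mul]
    refine setIntegral_mono_on i4 (i3.const_mul 2) measurableSet_closedBall fun x hx => ?_
    rw [smul_eq_mul]
    nlinarith [(ab x hx).1, f0 (φ x)]
  · refine (setIntegral_mono_set i2 (n0 _) hsub.eventuallyLE).trans ?_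
    rw [e1, ← integral_const_mul]
    refine setIntegral_mono_on i3 (i4.const_mul 2) measurableSet_closedBall fun x hx => ?_
    rw [smul_eq_mul]
    nlinarith [(ab x hx).2, f0 (φ x)]

end

end Vale.Agent.P204
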