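import Vale.Agent.P204.R.Op
import Vale.Agent.P204.R.Cov

/-!
P204 R/AvgE. Integral estimates for averages.
Plan: `avg_cont`: `continuousOn_of_dominated` (the integrand is bounded on the compact `closedBall 0 1 ×ˢ closedBall 0 r`).
`avg_est`: `C` from `near 1`, `C t ≤ ε` (`cov_near`), `r + C t < 4`. Fubini (`integral_integral_swap`; the integrand is continuous on a
compact product carrying the measure). Upper bound: `cov_near` for each `‖v‖ ≤ 1` with `η = C t`. Lower bound:
`near` is used at the parameter `(t d) • (d⁻¹ • v)`; simpler: use `jb_param_small` directly, or the fact that for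
`d = 1 / (8 C)` the statement of `near` holds at `d t` as well (`Tendsto.eventually` for `t ↦ d * t`), so for `‖v‖ ≤ d` the
displacement is `≤ C d t = t / 8`, and `ρ / 2 - t / 8 ≥ t / 8`; `c = P (closedBall 0 d) / 2` (`F.pos`,
`setIntegral_ge_of_const_le`-type lemma, `setIntegral_le_integral`).
`op_l1`: `‖op q‖ ≤ μ * avg t ‖s‖ q` (`norm_integral_le_of_norm_le`), then `avg_est` and `integral_mono_of_nonneg`.
-/

namespace Vale.Agent.P204

open scoped ContDiff Topology
open Metric MeasureTheory Set Filter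

noncomputable section

namespace Fl

variable {r : ℝ} (F : Fl r)

theorem avg_nonneg (t : ℝ) {f : E → ℝ} (hf : ∀ x, 0 ≤ f x) (q : E) : 0 ≤ F.avg t f q :=
  integral_nonneg fun _ => hf _

theorem Ok.cont_RAvgE {F : Fl r} {t : ℝ} (h : F.Ok t) {f : E → ℝ}
    (hf : ContinuousOn f (ball 0 4)) : ContinuousOn (fun z : E × F.V => f (F.Ψ (t • z.2, z.1)))
      (closedBall (0 : E) r ×ˢ closedBall (0 : F.V) 1) :=
  hf.comp (F.smooth.continuousOn.comp (by fun_prop) fun z hz => h _ hz.2 _ hz.1)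
    fun z hz => (F.maps _ (h _ hz.2 _ hz.1)).1

theorem Ok.avg_cont {F : Fl r} {t : ℝ} (h : F.Ok t) {f : E → ℝ} (hf : ContinuousOn f (ball 0 4)) :
    ContinuousOn (F.avg t f) (closedBall 0 r) := by
  have := FiniteDimensional.proper_real F.V
  obtain ⟨M, hM⟩ := ((isCompact_closedBall (0 : E) r).prod
    (isCompact_closedBall (0 : F.V) 1)).exists_bound_of_continuousOn (h.cont_RAvgE hf)
  refine continuousOn_of_dominated (bound := fun _ => M)
    (fun q hq => (h.avg_int hf hq).aestronglyMeasurable)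
    (fun q hq => F.supp.mono fun v hv => hM (q, v) ⟨hq, hv⟩) (integrable_const M)
    (F.supp.mono fun v hv => ?_)
  exact (h.cont_RAvgE hf).comp (f := fun q : E => (q, v)) (by fun_prop) fun q hq => ⟨hq, hv⟩

theorem sub_RAvgE {p : E} {ρ r : ℝ} (h : ‖p‖ + ρ ≤ r) : closedBall p ρ ⊆ closedBall (0 : E) r :=
  closedBall_subset_closedBall' (by rw [dist_zero_right]; linarith)

theorem Ok.swap_RAvgE {F : Fl r} {t : ℝ} (h : F.Ok t) {f : E → ℝ} (hf : ContinuousOn f (ball 0 4))
    {p : E} {ρ : ℝ} (hp : ‖p‖ + ρ ≤ r) :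
    Integrable (fun v => ∫ x in closedBall p ρ, f (F.Ψ (t • v, x))) F.P ∧
    ∫ x in closedBall p ρ, F.avg t f x = ∫ v, (∫ x in closedBall p ρ, f (F.Ψ (t • v, x))) ∂F.P := by
  have := FiniteDimensional.proper_real F.V
  have : IsFiniteMeasure (volume.restrict (closedBall p ρ)) :=
    isFiniteMeasure_restrict.2 measure_closedBall_lt_top.ne
  have hK := (isCompact_closedBall p ρ).prod (isCompact_closedBall (0 : F.V) 1)
  have h1 : IntegrableOn (fun z : E × F.V => f (F.Ψ (t • z.2, z.1)))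
      (closedBall p ρ ×ˢ closedBall (0 : F.V) 1) ((volume.restrict (closedBall p ρ)).prod F.P) :=
    ((h.cont_RAvgE hf).mono (prod_mono_left (sub_RAvgE hp))).integrableOn_compact hK
  have h2 : ∀ᵐ z ∂((volume.restrict (closedBall p ρ)).prod F.P),
      z ∈ closedBall p ρ ×ˢ closedBall (0 : F.V) 1 := by
    filter_upwards [Measure.quasiMeasurePreserving_fst.ae
      (ae_restrict_mem (μ := volume) (measurableSet_closedBall (x := p) (ε := ρ))),
      Measure.quasiMeasurePreserving_snd.ae F.supp] with z h1 h2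
    exact ⟨h1, h2⟩
  rw [IntegrableOn, Measure.restrict_eq_self_of_ae_mem h2] at h1
  exact ⟨h1.integral_prod_right, integral_integral_swap (f := fun x v => f (F.Ψ (t • v, x))) h1⟩

theorem avg_est (hr : r < 4) : ∃ C ≥ 1, ∃ c > 0, ∀ᶠ t in 𝓝[>] (0 : ℝ), ∀ f : E → ℝ,
    ContinuousOn f (ball 0 4) → (∀ x, 0 ≤ f x) → ∀ (p : E) (ρ : ℝ), 0 ≤ ρ → ‖p‖ + ρ ≤ r →
    ∫ x in closedBall p ρ, F.avg t f x ≤ 2 * ∫ x in closedBall p (ρ + C * t), f x ∧
    (t / 2 ≤ ρ → c * ∫ x in closedBall p (t / 8), f x ≤ ∫ x in closedBall p ρ, F.avg t f x) := by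
  obtain ⟨C, hC, hn⟩ := F.near 1
  obtain ⟨ε, hε, hcov⟩ := cov_near
  have hC0 : 0 < C := by linarith
  have hd : 0 < 1 / (8 * C) := by positivity
  have hd1 : 1 / (8 * C) ≤ 1 := by
    rw [div_le_one (by positivity)]
    linarith
  obtain ⟨d, hdd⟩ : ∃ d, d = 1 / (8 * C) := ⟨_, rfl⟩
  rw [← hdd] at hd hd1
  have hCd : C * d = 1 / 8 := by rw [hdd]; field_simp
  have htd : Tendsto (fun t : ℝ => d * t) (𝓝[>] 0) (𝓝[>] 0) := by
    refine tendsto_nhdsWithin_iff.2 ⟨?_, eventually_mem_nhdsWithin.mono fun t ht => mul_pos hd ht⟩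
    have h : Tendsto (fun t : ℝ => d * t) (𝓝 0) (𝓝 (d * 0)) := tendsto_id.const_mul d
    rw [mul_zero] at h
    exact h.mono_left nhdsWithin_le_nhds
  refine ⟨C, hC, F.P.real (closedBall 0 d) / 2, half_pos (F.pos d hd), ?_⟩
  filter_upwards [hn, htd.eventually hn, ev_le C hε, ev_le C (show 0 < (4 - r) / 2 by linarith),
    F.ev_ok] with t h1 h2 h3 h4 h5 f hf hf0 p ρ hρ hp
  have ht := h3.1
  have hcont : ∀ η, η ≤ C * t → ContinuousOn f (closedBall p (ρ + η)) := fun η hη =>
    hf.mono (closedBall_subset_ball' (by rw [dist_zero_right]; linarith [h4.2]))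
  obtain ⟨hI, hE⟩ := h5.swap_RAvgE hf hp
  rw [hE]
  constructor
  · refine (integral_mono_ae hI (integrable_const (2 * ∫ x in closedBall p (ρ + C * t), f x))
      (F.supp.mono fun v hv => ?_)).trans (le_of_eq (by simp))
    refine (hcov (fun x => F.Ψ (t • v, x)) (fun x => jet3_d F.Ψ (t • v, x)) p ρ (C * t) f hρ
      (fun x hx => ?_) (hcont _ le_rfl) hf0).1
    have := h1 v hv x (sub_RAvgE hp hx)
    exact ⟨F.has this.1, this.2.2.2.1.trans h3.2, this.2.2.1⟩
  · intro htρ
    have hdt : C * (d * t) = t / 8 := by rw [← mul_assoc, hCd]; ring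
    have hdt' : C * (d * t) ≤ C * t := by
      gcongr
      exact mul_le_of_le_one_left ht.le hd1
    have hlow : ∀ v ∈ closedBall (0 : F.V) d, 1 / 2 * ∫ x in closedBall p (t / 8), f x ≤
        ∫ x in closedBall p ρ, f (F.Ψ (t • v, x)) := by
      intro v hv
      have hv' : d⁻¹ • v ∈ closedBall (0 : F.V) 1 := by
        rw [mem_closedBall, dist_zero_right] at hv ⊢
        rw [norm_smul, Real.norm_eq_abs, abs_of_pos (inv_pos.2 hd), inv_mul_le_iff₀ hd]
        linarith
      have e1 : (d * t) • d⁻¹ • v = t • v := by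
        rw [smul_smul]
        congr 1
        field_simp
      have h6 := (hcov (fun x => F.Ψ (t • v, x)) (fun x => jet3_d F.Ψ (t • v, x)) p ρ (t / 8) f hρ
        (fun x hx => by
          have := h2 _ hv' x (sub_RAvgE hp hx)
          rw [e1, hdt] at this
          exact ⟨F.has this.1, this.2.2.2.1.trans (by linarith [h3.2]), this.2.2.1⟩)
        (hcont _ (by linarith)) hf0).2
      have h7 : ∫ x in closedBall p (t / 8), f x ≤ ∫ x in closedBall p (ρ / 2 - t / 8), f x := by
        refine setIntegral_mono_set (((hcont 0 (by positivity)).mono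
          (closedBall_subset_closedBall (by linarith))).integrableOn_compact
          (isCompact_closedBall _ _)) (Eventually.of_forall hf0)
          (closedBall_subset_closedBall (by linarith)).eventuallyLE
      linarith
    have h8 := setIntegral_ge_of_const_le_real (μ := F.P) measurableSet_closedBall
      (measure_ne_top _ _) hlow hI.integrableOn
    have h9 := setIntegral_le_integral (s := closedBall (0 : F.V) d) hI
      (Eventually.of_forall fun v => integral_nonneg fun x => hf0 _)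
    linarith

theorem op_l1 (hr : r < 4) : ∃ C ≥ 1, ∀ᶠ t in 𝓝[>] (0 : ℝ), ∀ N : F.V × E → Bil →L[ℝ] Bil,
    ∀ s : E → Bil, ContinuousOn s (ball 0 4) → ∀ μ : ℝ, 0 ≤ μ →
    (∀ v ∈ closedBall (0 : F.V) 1, ∀ q ∈ closedBall (0 : E) r, ‖N (t • v, q)‖ ≤ μ) →
    ∀ (p : E) (ρ : ℝ), 0 ≤ ρ → ‖p‖ + ρ ≤ r →
    ∫ x in closedBall p ρ, ‖F.op N t s x‖ ≤ 2 * μ * ∫ x in closedBall p (ρ + C * t), ‖s x‖ := by
  obtain ⟨C, hC, c, -, h⟩ := F.avg_est hr
  refine ⟨C, hC, ?_⟩
  filter_upwards [h, F.ev_ok] with t h1 h2 N s hs μ hμ hN p ρ hρ hp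
  have h3 := (h1 (fun x => ‖s x‖) hs.norm (fun _ => norm_nonneg _) p ρ hρ hp).1
  have h4 : IntegrableOn (F.avg t fun x => ‖s x‖) (closedBall p ρ) :=
    ((h2.avg_cont hs.norm).mono (sub_RAvgE hp)).integrableOn_compact (isCompact_closedBall _ _)
  have h5 : ∫ x in closedBall p ρ, ‖F.op N t s x‖ ≤
      ∫ x in closedBall p ρ, μ * F.avg t (fun x => ‖s x‖) x := by
    refine integral_mono_of_nonneg (Eventually.of_forall fun _ => norm_nonneg _) (h4.const_mul μ) ?_
    filter_upwards [ae_restrict_mem measurableSet_closedBall] with x hx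
    have hx' := sub_RAvgE hp hx
    rw [Fl.avg, ← integral_const_mul]
    refine norm_integral_le_of_norm_le ((h2.avg_int hs.norm hx').const_mul μ)
      (F.supp.mono fun v hv => ?_)
    exact ((N _).le_opNorm _).trans (mul_le_mul_of_nonneg_right (hN v hv x hx') (norm_nonneg _))
  rw [integral_const_mul] at h5
  nlinarith [mul_le_mul_of_nonneg_left h3 hμ]

end Fl

end

end Vale.Agent.P204
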