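import Vale.Agent.P204.R.Defs

/-!
P204 R/Bump. Facts on the cut-off, the mollifier and the measure `P1`.
Plan: `ContDiffBump` API (`contDiff`, `one_of_mem_closedBall`, `zero_of_le_dist`, `nonneg`, `le_one`,
`normed_def`, `integral_normed`, `contDiff_normed`, `nonneg_normed`, `integral_pos`).
`integral_P1`: `integral_withDensity_eq_integral_toReal_smul` (or the `NNReal` version).
`integral_P1_conv`: `Measure.integral_comp_smul` (`finrank = 4`) and `integral_add_left_eq_self`.
`rho_sjb`: `q ↦ rho0 (t⁻¹ • (x - q))` is `rho0 (t⁻¹ • x + ·)` composed with the linear map `-(t⁻¹) • id`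
(`ContinuousLinearMap.iteratedFDeriv_comp_right`, `norm_compContinuousLinearMap_le`,
`iteratedFDeriv_comp_add_left`), `jb_supp`.
-/

namespace Vale.Agent.P204

open scoped ContDiff Topology
open Metric MeasureTheory Set Filter

noncomputable section

theorem aB_supp : Supp (7 / 2) aB :=
  ⟨bA.contDiff, fun _ hp => bA.zero_of_le_dist (not_le.1 (mt mem_closedBall.2 hp)).le⟩

theorem aB_nonneg (q : E) : 0 ≤ aB q :=
  bA.nonneg

theorem aB_le (q : E) : aB q ≤ 1 :=
  bA.le_one

theorem aB_one {q : E} (h : q ∈ closedBall (0 : E) 3) : aB q = 1 :=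
  bA.one_of_mem_closedBall h

theorem rho0_supp : Supp 1 rho0 := by
  refine ⟨bR.contDiff_normed, fun p hp => ?_⟩
  rw [rho0, ContDiffBump.normed_def, bR.zero_of_le_dist (not_le.1 (mt mem_closedBall.2 hp)).le,
    zero_div]

theorem rho0_nonneg (v : E) : 0 ≤ rho0 v :=
  bR.nonneg_normed v

theorem rho0_int : ∫ v, rho0 v = 1 :=
  bR.integral_normed

theorem rho0_low : ∃ c > 0, ∀ v ∈ closedBall (0 : E) (1 / 2), c ≤ rho0 v := by
  refine ⟨1 / ∫ x, bR x, one_div_pos.2 bR.integral_pos, fun v hv => ?_⟩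
  rw [rho0, ContDiffBump.normed_def, bR.one_of_mem_closedBall hv]

theorem rho_supp {t : ℝ} (ht : 0 < t) : Supp t (rho t) := by
  refine ⟨contDiff_const.mul (rho0_supp.1.comp (contDiff_id.const_smul t⁻¹)), fun p hp => ?_⟩
  rw [rho, rho0_supp.2 _ fun h => hp ?_, mul_zero]
  rw [mem_closedBall_zero_iff, norm_smul, Real.norm_of_nonneg (inv_pos.2 ht).le,
    inv_mul_le_iff₀ ht, mul_one] at h
  exact mem_closedBall_zero_iff.2 h

theorem rho_nonneg (t : ℝ) (v : E) : 0 ≤ rho t v :=
  mul_nonneg (by positivity) (rho0_nonneg _)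

theorem rho_low : ∃ c > 0, ∀ t : ℝ, 0 < t → ∀ v ∈ closedBall (0 : E) (t / 2), c / t ^ 4 ≤ rho t v := by
  obtain ⟨c, hc, h⟩ := rho0_low
  refine ⟨c, hc, fun t ht v hv => ?_⟩
  rw [rho, div_eq_inv_mul]
  refine mul_le_mul_of_nonneg_left (h _ ?_) (by positivity)
  rw [mem_closedBall_zero_iff, norm_smul, Real.norm_of_nonneg (inv_pos.2 ht).le,
    inv_mul_le_iff₀ ht]
  exact (mem_closedBall_zero_iff.1 hv).trans_eq (by ring)

theorem rho_sjb (k : ℕ) : ∃ C ≥ 1, ∀ t : ℝ, 0 < t → ∀ x p : E,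
    SJB (fun q => rho t (x - q)) k t p (C / t ^ 4) := by
  obtain ⟨C, hC, h⟩ := jb_supp rho0_supp k
  refine ⟨C, hC, fun t ht x p i hi => ?_⟩
  have h1 : ContDiff ℝ i rho0 := rho0_supp.1.of_le (le_infty_Jet1 i)
  have h2 : ContDiff ℝ i fun z : E => rho0 (-t⁻¹ • z) := h1.comp (contDiff_id.const_smul _)
  have e : (fun q => rho t (x - q)) = fun q => (t ^ 4)⁻¹ • rho0 (-t⁻¹ • (q - x)) := by
    funext q
    rw [rho, smul_eq_mul, neg_smul, ← smul_neg, neg_sub]
  rw [e, iteratedFDeriv_comp_sub (f := fun z => (t ^ 4)⁻¹ • rho0 (-t⁻¹ • z)),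
    iteratedFDeriv_const_smul_apply' h2.contDiffAt,
    iteratedFDeriv_comp_const_smul _ h1, norm_smul, norm_smul, norm_pow, norm_neg,
    Real.norm_of_nonneg (inv_pos.2 ht).le, Real.norm_of_nonneg (by positivity)]
  calc t ^ i * ((t ^ 4)⁻¹ * (t⁻¹ ^ i * ‖iteratedFDeriv ℝ i rho0 (-t⁻¹ • (p - x))‖))
      = ‖iteratedFDeriv ℝ i rho0 (-t⁻¹ • (p - x))‖ / t ^ 4 := by
        rw [mul_left_comm, ← mul_assoc (t ^ i), ← mul_pow, mul_inv_cancel₀ ht.ne', one_pow, one_mul,
          div_eq_inv_mul]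
    _ ≤ C / t ^ 4 := div_le_div_of_nonneg_right (h _ i hi) (by positivity)

theorem rho0_meas : Measurable fun v => ENNReal.ofReal (rho0 v) :=
  rho0_supp.1.continuous.measurable.ennreal_ofReal

theorem rho0_integrable : Integrable rho0 := bR.integrable_normed

theorem P1_real {s : Set E} (hs : MeasurableSet s) : P1.real s = ∫ v in s, rho0 v := by
  rw [Measure.real, P1, withDensity_apply _ hs, ← ofReal_integral_eq_lintegral_ofReal
    rho0_integrable.integrableOn (Eventually.of_forall rho0_nonneg),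
    ENNReal.toReal_ofReal (integral_nonneg rho0_nonneg)]

instance P1_prob : IsProbabilityMeasure P1 := by
  refine ⟨?_⟩
  rw [P1, withDensity_apply _ MeasurableSet.univ, Measure.restrict_univ,
    ← ofReal_integral_eq_lintegral_ofReal rho0_integrable (Eventually.of_forall rho0_nonneg),
    rho0_int, ENNReal.ofReal_one]

theorem P1_supp : ∀ᵐ v ∂P1, v ∈ closedBall (0 : E) 1 := by
  rw [P1, ae_withDensity_iff rho0_meas]
  refine Eventually.of_forall fun v hv => by_contra fun h => hv ?_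
  rw [rho0_supp.2 v h, ENNReal.ofReal_zero]

theorem P1_pos {d : ℝ} (hd : 0 < d) : 0 < P1.real (closedBall 0 d) := by
  obtain ⟨c, hc, h⟩ := rho0_low
  have hm : 0 < min d (1 / 2) := lt_min hd one_half_pos
  refine lt_of_lt_of_le ?_ (measureReal_mono (closedBall_subset_closedBall (min_le_left d (1 / 2))))
  rw [P1_real measurableSet_closedBall]
  refine lt_of_lt_of_le ?_ (setIntegral_ge_of_const_le_real (c := c) measurableSet_closedBall
    measure_closedBall_lt_top.ne
    (fun v hv => h v (closedBall_subset_closedBall (min_le_right _ _) hv))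
    rho0_integrable.integrableOn)
  rw [vol_closedBall _ hm.le]
  have := vol_closedBall_pos
  positivity

theorem integral_P1 {F : Type} [NormedAddCommGroup F] [NormedSpace ℝ F] (g : E → F) :
    ∫ v, g v ∂P1 = ∫ v, rho0 v • g v := by
  rw [P1, integral_withDensity_eq_integral_toReal_smul rho0_meas
    (Eventually.of_forall fun _ => ENNReal.ofReal_lt_top)]
  simp only [ENNReal.toReal_ofReal (rho0_nonneg _)]

theorem integral_P1_conv {F : Type} [NormedAddCommGroup F] [NormedSpace ℝ F] {t : ℝ} (ht : 0 < t)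
    (g : E → F) (q : E) : ∫ v, g (q + t • v) ∂P1 = ∫ x, rho t (x - q) • g x := by
  have h := Measure.integral_comp_smul_of_nonneg volume (fun x : E => rho0 (t⁻¹ • x) • g (q + x)) t
    (hR := ht.le)
  simp only [smul_smul, inv_mul_cancel₀ ht.ne', one_smul, finrank_euclideanSpace,
    Fintype.card_fin] at h
  rw [integral_P1, h, ← integral_add_left_eq_self (fun x => rho t (x - q) • g x) q,
    ← integral_smul]
  simp only [rho, add_sub_cancel_left, smul_smul]

theorem rho_int {t : ℝ} (ht : 0 < t) : ∫ v, rho t v = 1 := by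
  simpa using (integral_P1_conv ht (fun _ => (1 : ℝ)) 0).symm

theorem contDiff_psi : ContDiff ℝ ∞ fun y : E × E => psi y.1 y.2 :=
  contDiff_snd.add ((aB_supp.1.comp contDiff_snd).smul contDiff_fst)

theorem psi_zero (q : E) : psi 0 q = q := by
  rw [psi, smul_zero, add_zero]

theorem norm_psi_sub (v q : E) : ‖psi v q - q‖ ≤ ‖v‖ := by
  rw [psi, add_sub_cancel_left, norm_smul, Real.norm_of_nonneg (aB_nonneg q)]
  exact mul_le_of_le_one_left (norm_nonneg _) (aB_le q)

theorem psi_out (v : E) {q : E} (hq : q ∉ closedBall (0 : E) (7 / 2)) :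
    psi v =ᶠ[𝓝 q] fun x => x := by
  filter_upwards [isClosed_closedBall.isOpen_compl.mem_nhds hq] with x hx
  rw [psi, aB_supp.2 x hx, zero_smul, add_zero]

theorem psi_in (v : E) {q : E} (hq : q ∈ ball (0 : E) 3) : psi v =ᶠ[𝓝 q] fun x => x + v := by
  filter_upwards [isOpen_ball.mem_nhds hq] with x hx
  rw [psi, aB_one (ball_subset_closedBall hx), one_smul]

theorem psi_mem {v q : E} (hv : ‖v‖ ≤ 1 / 4) (hq : q ∈ ball (0 : E) 4) :
    psi v q ∈ ball (0 : E) 4 := by
  by_cases h : q ∈ closedBall (0 : E) (7 / 2)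
  · rw [mem_closedBall_zero_iff] at h
    rw [mem_ball_zero_iff]
    linarith [norm_psi_sub v q, norm_le_norm_sub_add (psi v q) q]
  · rwa [(psi_out v h).eq_of_nhds]

theorem fderiv_psi (v q : E) :
    fderiv ℝ (psi v) q = jet3_d (fun y : E × E => psi y.1 y.2) (v, q) :=
  (jet3_has isOpen_univ contDiff_psi.contDiffOn (mem_univ (v, q))).fderiv

end

end Vale.Agent.P204
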