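import Vale.Agent.P204.R.Flat

/-!
P204 R/Conv. Smoothing effect of the convolution step.
Plan: `conv_sjb`: for `q ∈ W = ball p t` the integrand vanishes for `x ∉ K = closedBall p (2 t)` (`rho_supp`), so the integral
is over `K` (`setIntegral_eq_integral_of_forall_compl_eq_zero`); `SJB.congr`, `sjb_pint` with `P = volume.restrict K`,
`U = ball 0 4 ×ˢ ball 0 4`, bound `b x = 2^k (C / t^4) (2^k μ ‖s x‖)` (`SJB.smul`, `rho_sjb`, `SJB.clm_apply`, `SJB_const`).
`reg1_sjb`: `reg1_conv` on the neighbourhood `ball 0 3`; `N = id`, resp. `N (x, q) = pm (J q) - pm (J x)`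
(move `pm (J q)` under the integral: `ContinuousLinearMap.integral_comp_comm`, `integral_sub`; the integrands are continuous
with compact support). With `g = pm ∘ J`, `JB g (k+1) ≤ A` on `closedBall 0 (7/2)` (`jb_compact`): order `0` is
`‖g p - g x‖ ≤ A 2 t` (`jb_mean`), order `i ≥ 1` is `t^i A ≤ t A`.
-/

namespace Vale.Agent.P204

open scoped ContDiff Topology
open Metric MeasureTheory Set Filter

noncomputable section

theorem rho_zero_RConv {t : ℝ} (ht : 0 < t) {x q : E} (h : x ∉ closedBall q t) :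
    rho t (x - q) = 0 := by
  refine (rho_supp ht).2 _ fun h' => h ?_
  rwa [mem_closedBall, dist_zero_right, ← dist_eq_norm] at h'

theorem conv_sjb (k : ℕ) : ∃ C ≥ 1, ∀ t ∈ Ioc (0 : ℝ) (1 / 8), ∀ p ∈ closedBall (0 : E) 3,
    ∀ (N : E × E → Bil →L[ℝ] Bil) (s : E → Bil) (μ : ℝ),
    ContDiffOn ℝ ∞ N (ball 0 4 ×ˢ ball 0 4) → ContDiffOn ℝ ∞ s (ball 0 4) →
    (∀ x ∈ closedBall p (2 * t), SJB (fun q => N (x, q)) k t p μ) →
    SJB (fun q => ∫ x, rho t (x - q) • N (x, q) (s x)) k t p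
      (C * μ / t ^ 4 * ∫ x in closedBall p (2 * t), ‖s x‖) := by
  obtain ⟨C, hC, hr⟩ := rho_sjb k
  have h2k : (1 : ℝ) ≤ 2 ^ k := one_le_pow₀ (by norm_num)
  refine ⟨2 ^ k * C * 2 ^ k, one_le_mul_of_one_le_of_one_le
    (one_le_mul_of_one_le_of_one_le h2k hC) h2k, fun t ht p hp N s μ hN hs hμ => ?_⟩
  have hK : closedBall p (2 * t) ⊆ ball (0 : E) 4 :=
    closedBall_subset_ball' (by rw [mem_closedBall] at hp; linarith [ht.2])
  have hW : ball p t ⊆ ball (0 : E) 4 :=
    (ball_subset_closedBall.trans (closedBall_subset_closedBall (by linarith [ht.1]))).trans hK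
  have hp4 : p ∈ ball (0 : E) 4 := hW (mem_ball_self ht.1)
  have : IsFiniteMeasure (volume.restrict (closedBall p (2 * t))) :=
    isFiniteMeasure_restrict.2 measure_closedBall_lt_top.ne
  have hΦ : ContDiffOn ℝ ∞ (fun y : E × E => rho t (y.1 - y.2) • N (y.1, y.2) (s y.1))
      (ball 0 4 ×ˢ ball 0 4) :=
    ((rho_supp ht.1).1.comp (contDiff_fst.sub contDiff_snd)).contDiffOn.smul
      (hN.clm_apply (hs.comp contDiff_fst.contDiffOn fun y hy => hy.1))
  have hint : IntegrableOn (fun x => ‖s x‖) (closedBall p (2 * t)) :=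
    (hs.continuousOn.norm.mono hK).integrableOn_compact (isCompact_closedBall _ _)
  have hpt : ∀ x ∈ closedBall p (2 * t), SJB (fun q => rho t (x - q) • N (x, q) (s x)) k t p
      (2 ^ k * C * 2 ^ k * μ / t ^ 4 * ‖s x‖) := by
    intro x hx
    have hm : (x, p) ∈ ball (0 : E) 4 ×ˢ ball (0 : E) 4 := ⟨hK hx, hp4⟩
    have hN1 : ContDiffAt ℝ ∞ N (x, p) :=
      hN.contDiffAt ((isOpen_ball.prod isOpen_ball).mem_nhds hm)
    have hNx : ContDiffAt ℝ ∞ (fun q => N (x, q)) p :=
      ContDiffAt.comp (g := N) (f := fun q : E => (x, q)) p hN1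
        (contDiffAt_const.prodMk contDiffAt_id)
    have h2 : SJB (fun q => N (x, q) (s x)) k t p (2 ^ k * μ * ‖s x‖) :=
      SJB.clm_apply (A := fun q => N (x, q)) (f := fun _ => s x) ht.1.le hNx contDiffAt_const
        (hμ x hx) (SJB_const (s x) k ht.1.le p)
    have h4 : ContDiff ℝ ∞ fun q => rho t (x - q) :=
      (rho_supp ht.1).1.comp (contDiff_const.sub contDiff_id)
    have h5 : ContDiffAt ℝ ∞ (fun q => N (x, q) (s x)) p := hNx.clm_apply contDiffAt_const
    have h3 := SJB.smul ht.1.le h4.contDiffAt h5 (hr t ht.1 x p) h2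
    exact h3.mono le_rfl (le_of_eq (by ring))
  have h1 : SJB (fun q => ∫ x in closedBall p (2 * t), rho t (x - q) • N (x, q) (s x)) k t p
      (∫ x in closedBall p (2 * t), 2 ^ k * C * 2 ^ k * μ / t ^ 4 * ‖s x‖) :=
    sjb_pint (Φ := fun y : E × E => rho t (y.1 - y.2) • N (y.1, y.2) (s y.1))
      (volume.restrict (closedBall p (2 * t))) (isCompact_closedBall p (2 * t))
      (ae_restrict_mem measurableSet_closedBall) (isOpen_ball.prod isOpen_ball) hΦ isOpen_ball
      (prod_mono hK hW) (mem_ball_self ht.1) ht.1.le (hint.const_mul _)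
      ((ae_restrict_mem measurableSet_closedBall).mono hpt)
  rw [integral_const_mul] at h1
  refine h1.congr (mem_of_superset (ball_mem_nhds p ht.1) fun q hq => ?_)
  refine (setIntegral_eq_integral_of_forall_compl_eq_zero fun x hx => ?_).symm
  have : rho t (x - q) = 0 := rho_zero_RConv ht.1 fun h => hx (by
    rw [mem_closedBall] at h ⊢
    rw [mem_ball] at hq
    linarith [dist_triangle x q p])
  simp only [this, zero_smul]

theorem conv_int_RConv {t : ℝ} (ht : t ∈ Ioc (0 : ℝ) (1 / 8)) {q : E} (hq : q ∈ ball (0 : E) 3)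
    {s : E → Bil} (hs : ContinuousOn s (ball 0 4)) :
    Integrable fun x => rho t (x - q) • s x := by
  have hK : closedBall q t ⊆ ball (0 : E) 4 :=
    closedBall_subset_ball' (by rw [mem_ball] at hq; linarith [ht.2])
  have h1 : IntegrableOn (fun x => rho t (x - q) • s x) (closedBall q t) :=
    (((rho_supp ht.1).1.continuous.comp (continuous_id.sub continuous_const)).continuousOn.smul
      (hs.mono hK)).integrableOn_compact (isCompact_closedBall _ _)
  refine h1.integrable_of_forall_notMem_eq_zero fun x hx => ?_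
  rw [rho_zero_RConv ht.1 hx, zero_smul]

namespace Atlas

variable {𝒜 : Atlas}

theorem pmdiff_RConv {g : E → Bil →L[ℝ] Bil} (hg : ContDiffOn ℝ ∞ g (ball 0 4)) {k : ℕ} {A t : ℝ}
    (hA : 1 ≤ A) (hj : ∀ p ∈ closedBall (0 : E) (7 / 2), JB g (k + 1) p A)
    (ht : t ∈ Ioc (0 : ℝ) (1 / 8)) {p x : E}
    (hK : closedBall p (2 * t) ⊆ closedBall (0 : E) (7 / 2)) (hx : x ∈ closedBall p (2 * t)) :
    SJB (fun q => g q - g x) k t p (2 * A * t) := by
  intro i hi
  have htp := ht.1
  have hp7 : p ∈ closedBall (0 : E) (7 / 2) := hK (mem_closedBall_self (by linarith))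
  rcases Nat.eq_zero_or_pos i with rfl | hi0
  · have h2 := jb_mean (k := k) (fun y hy => hg.contDiffAt
      (isOpen_ball.mem_nhds (cb_sub (by norm_num) (hK hy)))) (fun y hy => hj y (hK hy)) hx 0
      (Nat.zero_le _)
    rw [← norm_neg, neg_sub, iteratedFDeriv_zero_eq_comp, Function.comp_apply,
      Function.comp_apply, ← map_sub, LinearIsometryEquiv.norm_map] at h2
    rw [pow_zero, one_mul, norm_iteratedFDeriv_zero]
    rw [mem_closedBall, dist_eq_norm] at hx
    refine h2.trans ?_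
    have := mul_le_mul_of_nonneg_left hx (show 0 ≤ A by linarith)
    linarith
  · obtain ⟨i, rfl⟩ : ∃ i', i = i' + 1 := ⟨i - 1, by omega⟩
    have e1 : fderiv ℝ (fun q => g q - g x) = fderiv ℝ g := funext fun q => fderiv_sub_const _
    rw [← norm_iteratedFDeriv_fderiv, e1, norm_iteratedFDeriv_fderiv]
    have h3 := hj p hp7 (i + 1) (by omega)
    have h4 : t ^ (i + 1) ≤ t := by
      rw [pow_succ]
      exact mul_le_of_le_one_left htp.le (pow_le_one₀ htp.le (by linarith [ht.2]))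
    have h5 : 0 ≤ A * t := by positivity
    calc _ ≤ t * A := mul_le_mul h4 h3 (norm_nonneg _) htp.le
      _ ≤ _ := by linarith

theorem reg1_sjb (j : Fin 𝒜.n) (k : ℕ) : ∃ C ≥ 1, ∀ t ∈ Ioc (0 : ℝ) (1 / 8), ∀ β : 𝒜.Form,
    ∀ p ∈ closedBall (0 : E) (11 / 4),
    SJB ((𝒜.reg1 j t β).1 j) k t p (C / t ^ 4 * ∫ x in closedBall p (2 * t), ‖β.1 j x‖) ∧
    SJB ((cm (𝒜.reg1 j t) β).1 j) k t p (C / t ^ 3 * ∫ x in closedBall p (2 * t), ‖β.1 j x‖) := by
  obtain ⟨C, hC, hc⟩ := conv_sjb k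
  have hg : ContDiffOn ℝ ∞ (fun q => pm (𝒜.J j q)) (ball 0 4) :=
    contDiff_pm.comp_contDiffOn (𝒜.J_smooth j)
  obtain ⟨A, hA, hj⟩ := jb_compact isOpen_ball hg (isCompact_closedBall (0 : E) (7 / 2))
    (cb_sub (by norm_num)) (k + 1)
  refine ⟨C * (2 * A), by nlinarith, fun t ht β p hp => ?_⟩
  have htp := ht.1
  have ht4 : t ∈ Ioc (0 : ℝ) (1 / 4) := ⟨ht.1, by linarith [ht.2]⟩
  have hp3 : p ∈ ball (0 : E) 3 := closedBall_subset_ball (by norm_num) hp
  have hI : 0 ≤ ∫ x in closedBall p (2 * t), ‖β.1 j x‖ := integral_nonneg fun _ => norm_nonneg _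
  have hK : closedBall p (2 * t) ⊆ closedBall (0 : E) (7 / 2) :=
    closedBall_subset_closedBall' (by rw [mem_closedBall] at hp; linarith [ht.2])
  constructor
  · have h1 := hc t ht p (ball_subset_closedBall hp3) (fun _ => ContinuousLinearMap.id ℝ Bil)
      (β.1 j) 1 contDiffOn_const (Form.smooth β j) fun x _ =>
        (SJB_const _ k htp.le p).mono le_rfl ContinuousLinearMap.norm_id_le
    refine (h1.congr (mem_of_superset (isOpen_ball.mem_nhds hp3) fun q hq => ?_)).mono le_rfl ?_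
    · exact reg1_conv ht4 j β hq
    · gcongr
      linarith
  · have hN : ContDiffOn ℝ ∞ (fun y : E × E => pm (𝒜.J j y.2) - pm (𝒜.J j y.1))
        (ball 0 4 ×ˢ ball 0 4) := (hg.comp contDiff_snd.contDiffOn fun y hy => hy.2).sub
          (hg.comp contDiff_fst.contDiffOn fun y hy => hy.1)
    have h1 := hc t ht p (ball_subset_closedBall hp3) _ (β.1 j) (2 * A * t) hN (Form.smooth β j)
      fun x hx => pmdiff_RConv hg hA hj ht hK hx
    refine (h1.congr (mem_of_superset (isOpen_ball.mem_nhds hp3) fun q hq => ?_)).mono le_rfl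
      (le_of_eq (by field_simp))
    have hi1 := conv_int_RConv ht hq (Form.smooth β j).continuousOn
    have hi2 := conv_int_RConv ht hq (Form.smooth (𝒜.Am β) j).continuousOn
    show pm (𝒜.J j q) ((𝒜.reg1 j t β).1 j q) - (𝒜.reg1 j t (𝒜.Am β)).1 j q = _
    rw [reg1_conv ht4 j β hq, reg1_conv ht4 j _ hq, ← ContinuousLinearMap.integral_comp_comm _ hi1,
      ← integral_sub ((pm (𝒜.J j q)).integrable_comp hi1) hi2]
    simp only [map_smul, Am_val, sub_apply, smul_sub]

end Atlas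

end

end Vale.Agent.P204
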