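import Vale.Agent.P204.R.Flat

/-!
P204 R/ConvP. Positivity of the convolution step.
Plan: `reg1_conv`; the integrand vanishes off `closedBall q t` (`rho_supp`, `setIntegral_eq_integral_of_forall_compl_eq_zero`) and is
continuous there; evaluate on vectors (`ContinuousLinearMap.integral_apply` twice); `setIntegral_mono_on`,
`rho_low`, `rho_sjb 0` with `SJB.norm_le`, `setIntegral_mono_set`.
-/

namespace Vale.Agent.P204

open scoped ContDiff Topology
open Metric MeasureTheory Set Filter

noncomputable section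

namespace Atlas

variable {𝒜 : Atlas}

theorem reg1_pos (j : Fin 𝒜.n) : ∃ C ≥ 1, ∃ c > 0, ∀ t ∈ Ioc (0 : ℝ) (1 / 8), ∀ β : 𝒜.Form,
    ∀ q ∈ closedBall (0 : E) (11 / 4), ∀ (u₁ u₂ : E) (Φ : E → ℝ) (l l' : ℝ),
    ContinuousOn Φ (closedBall q t) → (∀ x, 0 ≤ Φ x) → 0 ≤ l → 0 ≤ l' →
    (∀ x ∈ closedBall q t, (l - l') * Φ x ≤ β.1 j x u₁ u₂) →
    l * (c / t ^ 4 * ∫ x in closedBall q (t / 2), Φ x) -
      l' * (C / t ^ 4 * ∫ x in closedBall q t, Φ x) ≤ (𝒜.reg1 j t β).1 j q u₁ u₂ := by
  obtain ⟨C, hC, hr⟩ := rho_sjb 0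
  obtain ⟨c, hc, hl⟩ := rho_low
  refine ⟨C, hC, c, hc, fun t ht β q hq u₁ u₂ Φ l l' hΦ h0 hl0 hl' h => ?_⟩
  have htp := ht.1
  have hK : closedBall q t ⊆ ball (0 : E) 4 :=
    closedBall_subset_ball' (by rw [mem_closedBall] at hq; linarith [ht.2])
  have hcK := isCompact_closedBall q t
  have hρ : Continuous fun x => rho t (x - q) :=
    (rho_supp htp).1.continuous.comp (continuous_id.sub continuous_const)
  have hβ : ContinuousOn (β.1 j) (closedBall q t) := (Form.smooth β j).continuousOn.mono hK
  have hi : IntegrableOn (fun x => rho t (x - q) • β.1 j x) (closedBall q t) :=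
    (hρ.continuousOn.smul hβ).integrableOn_compact hcK
  have e1 : (𝒜.reg1 j t β).1 j q = ∫ x in closedBall q t, rho t (x - q) • β.1 j x := by
    rw [reg1_conv ⟨htp, by linarith [ht.2]⟩ j β (closedBall_subset_ball (by norm_num) hq)]
    refine (setIntegral_eq_integral_of_forall_compl_eq_zero fun x hx => ?_).symm
    have : rho t (x - q) = 0 := (rho_supp htp).2 _ fun h' => hx (by
      rwa [mem_closedBall, dist_zero_right, ← dist_eq_norm] at h')
    rw [this, zero_smul]
  have e2 : (𝒜.reg1 j t β).1 j q u₁ u₂ = ∫ x in closedBall q t, rho t (x - q) * β.1 j x u₁ u₂ := by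
    rw [e1, ContinuousLinearMap.integral_apply hi,
      ContinuousLinearMap.integral_apply (hi.apply_continuousLinearMap u₁)]
    simp only [smul_apply, smul_eq_mul]
  have hI : IntegrableOn (fun x => rho t (x - q) * Φ x) (closedBall q t) :=
    (hρ.continuousOn.mul hΦ).integrableOn_compact hcK
  have hΦi : IntegrableOn Φ (closedBall q t) := hΦ.integrableOn_compact hcK
  have hsub : closedBall q (t / 2) ⊆ closedBall q t := closedBall_subset_closedBall (by linarith)
  have h1 : (l - l') * ∫ x in closedBall q t, rho t (x - q) * Φ x ≤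
      ∫ x in closedBall q t, rho t (x - q) * β.1 j x u₁ u₂ := by
    rw [← integral_const_mul]
    refine setIntegral_mono_on (hI.const_mul _) ((hρ.continuousOn.mul ((hβ.clm_apply
      continuousOn_const).clm_apply continuousOn_const)).integrableOn_compact hcK)
      measurableSet_closedBall fun x hx => ?_
    rw [mul_left_comm]
    exact mul_le_mul_of_nonneg_left (h x hx) (rho_nonneg _ _)
  have h2 : ∫ x in closedBall q t, rho t (x - q) * Φ x ≤ C / t ^ 4 * ∫ x in closedBall q t, Φ x := by
    rw [← integral_const_mul]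
    refine setIntegral_mono_on hI (hΦi.const_mul _) measurableSet_closedBall fun x _ => ?_
    exact mul_le_mul_of_nonneg_right ((le_abs_self _).trans (hr t htp x q).norm_le) (h0 x)
  have h3 : c / t ^ 4 * ∫ x in closedBall q (t / 2), Φ x ≤
      ∫ x in closedBall q t, rho t (x - q) * Φ x := by
    rw [← integral_const_mul]
    refine le_trans (setIntegral_mono_on ((hΦi.mono_set hsub).const_mul _) (hI.mono_set hsub)
      measurableSet_closedBall fun x hx => ?_) (setIntegral_mono_set hI
      (Eventually.of_forall fun x => mul_nonneg (rho_nonneg _ _) (h0 x)) hsub.eventuallyLE)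
    refine mul_le_mul_of_nonneg_right (hl t htp _ ?_) (h0 x)
    rwa [mem_closedBall, dist_zero_right, ← dist_eq_norm]
  rw [e2]
  nlinarith [mul_le_mul_of_nonneg_left h2 hl', mul_le_mul_of_nonneg_left h3 hl0]

end Atlas

end

end Vale.Agent.P204
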