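import Vale.Agent.P204.At6
import Vale.Agent.P204.Jet3

/-!
P204 R/Defs: the regularisation operators and the averaging class (FIXED FILE, helper49).
See notes/P204R.md.
-/

namespace Vale.Agent.P204

open scoped ContDiff Topology
open Metric MeasureTheory Set Filter

noncomputable section

theorem ev_le (A : ℝ) {c : ℝ} (hc : 0 < c) : ∀ᶠ t in 𝓝[>] (0 : ℝ), 0 < t ∧ A * t ≤ c := by
  have h : Tendsto (fun t : ℝ => A * t) (𝓝 0) (𝓝 (A * 0)) := tendsto_id.const_mul A
  rw [mul_zero] at h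
  exact eventually_mem_nhdsWithin.and (nhdsWithin_le_nhds (h.eventually_le_const hc))

/-- bump equal to one on the ball of radius `3`, zero outside the ball of radius `7/2` -/
def bA : ContDiffBump (0 : E) := ⟨3, 7 / 2, by norm_num, by norm_num⟩

/-- bump equal to one on the ball of radius `1/2`, zero outside the unit ball -/
def bR : ContDiffBump (0 : E) := ⟨1 / 2, 1, by norm_num, by norm_num⟩

/-- the cut-off of the translations -/
def aB (q : E) : ℝ := bA q

/-- the mollifier at scale one -/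
def rho0 (v : E) : ℝ := bR.normed volume v

/-- the mollifier at scale `t` -/
def rho (t : ℝ) (v : E) : ℝ := (t ^ 4)⁻¹ * rho0 (t⁻¹ • v)

/-- the probability measure with density `rho0` -/
def P1 : Measure E := volume.withDensity fun v => ENNReal.ofReal (rho0 v)

/-- cut-off translation -/
def psi (v q : E) : E := q + aB q • v

/-- average of the pull-backs by the cut-off translations -/
def flat (t : ℝ) (s : E → Bil) (q : E) : Bil :=
  ∫ v, pullL (fderiv ℝ (psi (t • v)) q) (s (psi (t • v) q)) ∂P1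

/-- A probability measure on the unit ball of a parameter space and a smooth family of maps that
is the identity at the parameter `0`, defined near the closed ball of radius `r`. -/
structure Fl (r : ℝ) : Type 1 where
  V : Type
  [i1 : NormedAddCommGroup V]
  [i2 : NormedSpace ℝ V]
  [i3 : FiniteDimensional ℝ V]
  [i4 : MeasurableSpace V]
  [i5 : BorelSpace V]
  P : Measure V
  [i6 : IsProbabilityMeasure P]
  supp : ∀ᵐ v ∂P, v ∈ closedBall (0 : V) 1
  pos : ∀ d : ℝ, 0 < d → 0 < P.real (closedBall 0 d)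
  U : Set (V × E)
  Ψ : V × E → E
  isOpen : IsOpen U
  sub : ∀ q ∈ closedBall (0 : E) r, ((0 : V), q) ∈ U
  smooth : ContDiffOn ℝ ∞ Ψ U
  zero : ∀ q, Ψ (0, q) = q
  maps : ∀ y ∈ U, Ψ y ∈ ball (0 : E) 4 ∧ y.2 ∈ ball (0 : E) 4

instance {r : ℝ} (F : Fl r) : NormedAddCommGroup F.V := F.i1
instance {r : ℝ} (F : Fl r) : NormedSpace ℝ F.V := F.i2
instance {r : ℝ} (F : Fl r) : FiniteDimensional ℝ F.V := F.i3
instance {r : ℝ} (F : Fl r) : MeasurableSpace F.V := F.i4
instance {r : ℝ} (F : Fl r) : BorelSpace F.V := F.i5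
instance {r : ℝ} (F : Fl r) : IsProbabilityMeasure F.P := F.i6

namespace Fl

variable {r : ℝ} (F : Fl r)

/-- the scaled parameters are admissible -/
def Ok (t : ℝ) : Prop :=
  ∀ v ∈ closedBall (0 : F.V) 1, ∀ p ∈ closedBall (0 : E) r, (t • v, p) ∈ F.U

/-- the pull-back kernel -/
def pb (y : F.V × E) : Bil →L[ℝ] Bil := pullL (jet3_d F.Ψ y)

/-- the commutator kernel for the structure `J` -/
def ck (J : E → End) (y : F.V × E) : Bil →L[ℝ] Bil :=
  (pm (J y.2)).comp (F.pb y) - (F.pb y).comp (pm (J (F.Ψ y)))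

/-- the averaging operator with kernel `N` -/
def op (N : F.V × E → Bil →L[ℝ] Bil) (t : ℝ) (s : E → Bil) (q : E) : Bil :=
  ∫ v, N (t • v, q) (s (F.Ψ (t • v, q))) ∂F.P

/-- the average of a scalar function -/
def avg (t : ℝ) (f : E → ℝ) (q : E) : ℝ := ∫ v, f (F.Ψ (t • v, q)) ∂F.P

end Fl

namespace Atlas

variable (𝒜 : Atlas)

/-- regularisation in chart `l`, as a function -/
def reg1F (l : Fin 𝒜.n) (t : ℝ) (β : 𝒜.Form) : 𝒜.Form :=
  β + 𝒜.ext l fun q => flat t (β.1 l) q - β.1 l q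

open Classical in
/-- regularisation in chart `l` -/
def reg1 (l : Fin 𝒜.n) (t : ℝ) : 𝒜.Form →ₗ[ℝ] 𝒜.Form :=
  if h : IsLinearMap ℝ (𝒜.reg1F l t) then IsLinearMap.mk' _ h else 0

/-- composition of the regularisations over a list of charts -/
def regL : List (Fin 𝒜.n) → ℝ → 𝒜.Form →ₗ[ℝ] 𝒜.Form
  | [], _ => LinearMap.id
  | l :: ls, t => 𝒜.reg1 l t ∘ₗ regL ls t

/-- the regularisation -/
def RR (t : ℝ) : 𝒜.Form →ₗ[ℝ] 𝒜.Form := 𝒜.regL (List.finRange 𝒜.n) t

variable {𝒜}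

theorem regL_nil (t : ℝ) (β : 𝒜.Form) : 𝒜.regL [] t β = β := rfl

theorem regL_cons (l : Fin 𝒜.n) (ls : List (Fin 𝒜.n)) (t : ℝ) (β : 𝒜.Form) :
    𝒜.regL (l :: ls) t β = 𝒜.reg1 l t (𝒜.regL ls t β) := rfl

theorem regL_append (ls ls' : List (Fin 𝒜.n)) (t : ℝ) (β : 𝒜.Form) :
    𝒜.regL (ls ++ ls') t β = 𝒜.regL ls t (𝒜.regL ls' t β) := by
  induction ls with
  | nil => rfl
  | cons l ls ih => rw [List.cons_append, regL_cons, regL_cons, ih]

theorem RR_split (j : Fin 𝒜.n) : ∃ ls ls' : List (Fin 𝒜.n), ∀ t β,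
    𝒜.RR t β = 𝒜.regL ls t (𝒜.reg1 j t (𝒜.regL ls' t β)) := by
  obtain ⟨ls, ls', h⟩ := List.append_of_mem (List.mem_finRange j)
  exact ⟨ls, ls', fun t β => by rw [RR, h, regL_append, regL_cons]⟩

/-- the commutator with the anti-invariant projection -/
def cm (L : 𝒜.Form →ₗ[ℝ] 𝒜.Form) (β : 𝒜.Form) : 𝒜.Form := 𝒜.Am (L β) - L (𝒜.Am β)

theorem cm_comp (L L' : 𝒜.Form →ₗ[ℝ] 𝒜.Form) (β : 𝒜.Form) :
    cm (L ∘ₗ L') β = cm L (L' β) + L (cm L' β) := by
  simp only [cm, LinearMap.comp_apply, map_sub]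
  abel

/-- families of operators that are averages of pull-backs in chart `j` -/
def Avg (L : ℝ → 𝒜.Form →ₗ[ℝ] 𝒜.Form) (j : Fin 𝒜.n) : Prop :=
  ∀ r < (4 : ℝ), ∃ F : Fl r, ∀ᶠ t in 𝓝[>] (0 : ℝ), ∀ (β : 𝒜.Form), ∀ q ∈ closedBall (0 : E) r,
    (L t β).1 j q = F.op F.pb t (β.1 j) q

end Atlas

end

end Vale.Agent.P204
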