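import Vale.Agent.P204.R.Defs

/-!
P204 R/Diff. Jets of `s ∘ φ - s` for `φ` close to the identity.
Plan: on `W`, `s (φ q) - s q = ∫ θ in Icc 0 1, Φ (θ, q)`, `Φ (θ, q) = fderiv s (q + θ • (φ q - q)) (φ q - q)`
(`intervalIntegral.integral_eq_sub_of_hasDerivAt`; the ball is convex). `sjb_pint` with `G = ℝ`,
`P = volume.restrict (Icc 0 1)`, `K = Icc 0 1`, `U = {y | y.2 ∈ W ∧ y.2 + y.1 • (φ y.2 - y.2) ∈ ball 0 4}`, `t = 1`.
Pointwise: `SJB.clm_apply`, `SJB.comp` with `L = 2` (jets of order `≥ 1` of `q + θ • (φ q - q)` are `≤ 1 + η`), `JB.fderiv`.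
-/

namespace Vale.Agent.P204

open scoped ContDiff Topology
open Metric MeasureTheory Set Filter

noncomputable section

theorem seg_mem_RDiff {x y : E} (hx : x ∈ ball (0 : E) 4) (hy : y ∈ ball (0 : E) 4) {θ : ℝ}
    (hθ : θ ∈ Icc (0 : ℝ) 1) : x + θ • (y - x) ∈ ball (0 : E) 4 :=
  (convex_ball (0 : E) 4).add_smul_sub_mem hx hy hθ

theorem ftc_RDiff {s : E → Bil} (hs : ContDiffOn ℝ ∞ s (ball 0 4)) {x y : E}
    (hx : x ∈ ball (0 : E) 4) (hy : y ∈ ball (0 : E) 4) :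
    s y - s x = ∫ θ in Icc (0 : ℝ) 1, fderiv ℝ s (x + θ • (y - x)) (y - x) := by
  have h1 : ∀ θ ∈ uIcc (0 : ℝ) 1, HasDerivAt (fun θ : ℝ => s (x + θ • (y - x)))
      (fderiv ℝ s (x + θ • (y - x)) (y - x)) θ := fun θ hθ => by
    rw [uIcc_of_le zero_le_one] at hθ
    have h2 := ((hs.contDiffAt (isOpen_ball.mem_nhds (seg_mem_RDiff hx hy hθ))).differentiableAt
      (by simp)).hasFDerivAt
    have h3 : HasDerivAt (fun θ : ℝ => x + θ • (y - x)) (y - x) θ := by
      simpa using ((hasDerivAt_id θ).smul_const (y - x)).const_add x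
    exact h2.comp_hasDerivAt θ h3
  have h4 : ContinuousOn (fun θ : ℝ => fderiv ℝ s (x + θ • (y - x)) (y - x)) (uIcc 0 1) := by
    rw [uIcc_of_le zero_le_one]
    exact ((hs.continuousOn_fderiv_of_isOpen isOpen_ball (by simp)).comp (by fun_prop)
      fun θ hθ => seg_mem_RDiff hx hy hθ).clm_apply continuousOn_const
  have h5 := intervalIntegral.integral_eq_sub_of_hasDerivAt h1 h4.intervalIntegrable
  rw [intervalIntegral.integral_of_le zero_le_one, ← integral_Icc_eq_integral_Ioc] at h5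
  simpa using h5.symm

theorem id_jet_RDiff {i : ℕ} (hi : 1 ≤ i) (p : E) : ‖iteratedFDeriv ℝ i (fun q : E => q) p‖ ≤ 1 := by
  obtain ⟨n, rfl⟩ := Nat.exists_eq_add_of_le' hi
  rw [← norm_iteratedFDeriv_fderiv]
  have e : fderiv ℝ (fun q : E => q) = fun _ => ContinuousLinearMap.id ℝ E :=
    funext fun _ => fderiv_fun_id
  rw [e]
  have h := SJB_const (D := E) (ContinuousLinearMap.id ℝ E) n zero_le_one p n le_rfl
  rw [one_pow, one_mul] at h
  exact h.trans ContinuousLinearMap.norm_id_le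

theorem jb_comp_sub (k : ℕ) : ∃ C ≥ 1, ∀ (s : E → Bil) (φ : E → E) (W : Set E) (p : E) (η M : ℝ),
    IsOpen W → p ∈ W → W ⊆ ball 0 4 → MapsTo φ W (ball 0 4) → ContDiffOn ℝ ∞ s (ball 0 4) →
    ContDiffOn ℝ ∞ φ W → η ≤ 1 → JB (fun q => φ q - q) k p η →
    (∀ q ∈ closedBall p η, JB s (k + 1) q M) → JB (fun q => s (φ q) - s q) k p (C * η * M) := by
  refine ⟨2 ^ k * (k.factorial * 2 ^ k), one_le_mul_of_one_le_of_one_le (one_le_pow₀ one_le_two)
    (one_le_mul_of_one_le_of_one_le (by exact_mod_cast k.factorial_pos) (one_le_pow₀ one_le_two)),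
    fun s φ W p η M hW hp hW4 hφ4 hs hφ hη h1 h2 => ?_⟩
  rw [JB_iff_SJB] at h1 ⊢
  have hs' : ContDiffOn ℝ ∞ (fderiv ℝ s) (ball 0 4) :=
    ((contDiffOn_infty_iff_fderiv_of_isOpen isOpen_ball).1 hs).2
  have hd : ContDiffOn ℝ ∞ (fun y : ℝ × E => φ y.2 - y.2) (Prod.snd ⁻¹' W) :=
    (hφ.comp contDiffOn_snd fun _ h => h).sub contDiffOn_snd
  have hg : ContDiffOn ℝ ∞ (fun y : ℝ × E => y.2 + y.1 • (φ y.2 - y.2)) (Prod.snd ⁻¹' W) :=
    contDiffOn_snd.add (contDiffOn_fst.smul hd)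
  have hU := hg.continuousOn.isOpen_inter_preimage (hW.preimage continuous_snd)
    (isOpen_ball (x := (0 : E)) (ε := 4))
  have hΦ : ContDiffOn ℝ ∞ (fun y : ℝ × E => fderiv ℝ s (y.2 + y.1 • (φ y.2 - y.2)) (φ y.2 - y.2))
      (Prod.snd ⁻¹' W ∩ (fun y : ℝ × E => y.2 + y.1 • (φ y.2 - y.2)) ⁻¹' ball 0 4) :=
    (hs'.comp (hg.mono inter_subset_left) fun _ h => h.2).clm_apply (hd.mono inter_subset_left)
  have hdp : ContDiffAt ℝ ∞ (fun q => φ q - q) p :=
    (hφ.contDiffAt (hW.mem_nhds hp)).sub contDiffAt_id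
  have key := sjb_pint (volume.restrict (Icc (0 : ℝ) 1)) isCompact_Icc
    (ae_restrict_mem measurableSet_Icc) hU hΦ hW
    (fun y hy => ⟨hy.2, seg_mem_RDiff (hW4 hy.2) (hφ4 hy.2) hy.1⟩) hp (k := k) zero_le_one
    (integrable_const (2 ^ k * (k.factorial * 2 ^ k * M) * η))
    ((ae_restrict_mem measurableSet_Icc).mono fun θ hθ => by
      have a1 : ContDiffAt ℝ ∞ (fun q => q + θ • (φ q - q)) p :=
        contDiffAt_id.add (hdp.const_smul θ)
      have a2 := hs'.contDiffAt (isOpen_ball.mem_nhds (seg_mem_RDiff (hW4 hp) (hφ4 hp) hθ))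
      have a3 : p + θ • (φ p - p) ∈ closedBall p η := by
        rw [mem_closedBall, dist_eq_norm, add_sub_cancel_left, norm_smul, Real.norm_of_nonneg hθ.1]
        exact (mul_le_of_le_one_left (norm_nonneg _) hθ.2).trans h1.norm_le
      refine SJB.clm_apply zero_le_one (a2.comp p a1) hdp (SJB.comp (g := fderiv ℝ s)
        (φ := fun q => q + θ • (φ q - q)) one_pos le_rfl a2 a1
        ((JB_iff_SJB ..).1 (h2 _ a3).fderiv) one_le_two fun i hi hik => ?_) h1
      have a4 := h1 i hik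
      rw [one_pow, one_mul] at a4
      rw [fun_iteratedFDeriv_add_apply contDiffAt_fun_id
        ((hdp.const_smul θ).of_le (le_infty_Jet1 i)),
        iteratedFDeriv_const_smul_apply' (hdp.of_le (le_infty_Jet1 i))]
      refine (norm_add_le _ _).trans ?_
      rw [norm_smul, Real.norm_of_nonneg hθ.1]
      linarith [id_jet_RDiff hi p, mul_le_of_le_one_left (norm_nonneg
        (iteratedFDeriv ℝ i (fun q => φ q - q) p)) hθ.2])
  refine (key.congr ?_).mono le_rfl (le_of_eq ?_)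
  · filter_upwards [hW.mem_nhds hp] with q hq
    exact ftc_RDiff hs (hW4 hq) (hφ4 hq)
  · simp
    ring

end

end Vale.Agent.P204
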