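import Vale.Agent.P204.R.Bump

/-!
P204 R/Flat. The regularisation in one chart.
Plan: the integrand is `Φ (v, q)` with `Φ y = pullL (jet3_d ψ (t • y.1, y.2)) (s (psi (t • y.1) y.2))`
(`fderiv_psi`, `jet3_smooth` with `U = univ`), smooth on the open set `{y | psi (t • y.1) y.2 ∈ ball 0 4}`
which contains `closedBall 0 1 ×ˢ ball 0 4` (`psi_mem`); `integrable_pint`, `contDiffOn_pint`.
`flat_out`, `flat_conv`: `psi_out`, `psi_in` give `fderiv = id`; `pullL_id`, `integral_P1_conv`.
`isLoc_flat`: `supp_of_contDiffOn`; alternation: evaluate the integral on vectors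
(`ContinuousLinearMap.integral_apply` twice), `IsAlt.pull`, `integral_neg`. Outside `ball 0 4` use `flat_out`.
`reg1_apply`: `reg1F` is linear by `ext_add`, `ext_smul`, `integral_add`, `integral_smul`.
`reg1_in`, `reg1_out`: `ext_val`, unfold `extF`, `Form.compat`.
-/

namespace Vale.Agent.P204

open scoped ContDiff Topology
open Metric MeasureTheory Set Filter

noncomputable section

/-- the integrand of `flat` as a function of both variables -/
def flatI (t : ℝ) (s : E → Bil) (y : E × E) : Bil :=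
  pullL (fderiv ℝ (psi (t • y.1)) y.2) (s (psi (t • y.1) y.2))

theorem psi_t_smooth (t : ℝ) : ContDiff ℝ ∞ fun y : E × E => psi (t • y.1) y.2 :=
  contDiff_psi.comp (f := fun y : E × E => (t • y.1, y.2))
    ((contDiff_fst.const_smul t).prodMk contDiff_snd)

theorem dpsi_t_smooth (t : ℝ) : ContDiff ℝ ∞ fun y : E × E => fderiv ℝ (psi (t • y.1)) y.2 := by
  simp only [fderiv_psi]
  exact (contDiffOn_univ.1 (jet3_smooth isOpen_univ contDiff_psi.contDiffOn)).comp
    (f := fun y : E × E => (t • y.1, y.2)) ((contDiff_fst.const_smul t).prodMk contDiff_snd)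

theorem flatU_open (t : ℝ) : IsOpen {y : E × E | psi (t • y.1) y.2 ∈ ball (0 : E) 4} :=
  isOpen_ball.preimage (psi_t_smooth t).continuous

theorem flatU_mem {t : ℝ} (ht : t ∈ Ioc (0 : ℝ) (1 / 4)) {v q : E} (hv : v ∈ closedBall (0 : E) 1)
    (hq : q ∈ ball (0 : E) 4) : psi (t • v) q ∈ ball (0 : E) 4 := by
  refine psi_mem ?_ hq
  rw [norm_smul, Real.norm_of_nonneg ht.1.le]
  exact (mul_le_of_le_one_right ht.1.le (mem_closedBall_zero_iff.1 hv)).trans ht.2

theorem flat_integrable {t : ℝ} (ht : t ∈ Ioc (0 : ℝ) (1 / 4)) {s : E → Bil}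
    (hs : ContinuousOn s (ball 0 4)) {q : E} (hq : q ∈ ball (0 : E) 4) :
    Integrable (fun v => pullL (fderiv ℝ (psi (t • v)) q) (s (psi (t • v) q))) P1 :=
  integrable_pint (Φ := flatI t s) (U := {y : E × E | psi (t • y.1) y.2 ∈ ball (0 : E) 4}) P1
    (isCompact_closedBall 0 1) P1_supp
    ((contDiff_pullL.continuous.comp (dpsi_t_smooth t).continuous).continuousOn.clm_apply
      (hs.comp (psi_t_smooth t).continuous.continuousOn fun _ h => h))
    fun _ hv => flatU_mem ht hv hq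

theorem flat_smooth {t : ℝ} (ht : t ∈ Ioc (0 : ℝ) (1 / 4)) {s : E → Bil}
    (hs : ContDiffOn ℝ ∞ s (ball 0 4)) : ContDiffOn ℝ ∞ (flat t s) (ball 0 4) :=
  contDiffOn_pint (Φ := flatI t s) (U := {y : E × E | psi (t • y.1) y.2 ∈ ball (0 : E) 4}) P1
    (isCompact_closedBall 0 1) P1_supp (flatU_open t)
    ((contDiff_pullL.comp (dpsi_t_smooth t)).contDiffOn.clm_apply
      (hs.comp (psi_t_smooth t).contDiffOn fun _ h => h))
    isOpen_ball fun _ h => flatU_mem ht h.1 h.2

theorem flat_out (t : ℝ) (s : E → Bil) {q : E} (hq : q ∉ closedBall (0 : E) (7 / 2)) :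
    flat t s q = s q := by
  have h : ∀ v : E, pullL (fderiv ℝ (psi (t • v)) q) (s (psi (t • v) q)) = s q := fun v => by
    rw [(psi_out _ hq).fderiv_eq, (psi_out _ hq).eq_of_nhds, fderiv_fun_id, pullL_id]
  simp only [flat, h, integral_const, probReal_univ, one_smul]

theorem flat_conv {t : ℝ} (ht : 0 < t) (s : E → Bil) {q : E} (hq : q ∈ ball (0 : E) 3) :
    flat t s q = ∫ x, rho t (x - q) • s x := by
  have h : ∀ v : E, pullL (fderiv ℝ (psi (t • v)) q) (s (psi (t • v) q)) = s (q + t • v) :=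
    fun v => by
      rw [(psi_in _ hq).fderiv_eq, (psi_in _ hq).eq_of_nhds, fderiv_add_const, fderiv_fun_id,
        pullL_id]
  simp only [flat, h]
  exact integral_P1_conv ht s q

namespace Atlas

variable {𝒜 : Atlas}

theorem isLoc_flat {t : ℝ} (ht : t ∈ Ioc (0 : ℝ) (1 / 4)) (l : Fin 𝒜.n) (β : 𝒜.Form) :
    IsLoc (7 / 2) fun q => flat t (β.1 l) q - β.1 l q := by
  refine ⟨supp_of_contDiffOn isOpen_ball ((flat_smooth ht (Form.smooth β l)).sub (Form.smooth β l))
    (cb_sub (by norm_num)) fun q hq => by rw [flat_out t _ hq, sub_self], fun q u v => ?_⟩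
  by_cases hq : q ∈ ball (0 : E) 4
  · have hi := flat_integrable ht (Form.smooth β l).continuousOn hq
    have e : ∀ u v, flat t (β.1 l) q u v =
        ∫ w, pullL (fderiv ℝ (psi (t • w)) q) (β.1 l (psi (t • w) q)) u v ∂P1 := fun u v => by
      rw [flat, ContinuousLinearMap.integral_apply hi,
        ContinuousLinearMap.integral_apply (hi.apply_continuousLinearMap u)]
    simp only [sub_apply]
    rw [e, e, Form.alt β l q u v, neg_sub, sub_neg_eq_add, sub_eq_add_neg, add_comm, ← integral_neg]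
    congr 1
    exact integral_congr_ae (Eventually.of_forall fun w => (Form.alt β l _).pull _ u v)
  · simp only [flat_out t _ fun h => hq (cb_sub (by norm_num) h), sub_self, zero_apply, neg_zero]

theorem flat_zero_RFlat (t : ℝ) (l : Fin 𝒜.n) (β : 𝒜.Form) {q : E} (hq : q ∉ ball (0 : E) 4) :
    flat t (β.1 l) q = β.1 l q := flat_out t _ fun h => hq (cb_sub (by norm_num) h)

theorem reg1F_lin {t : ℝ} (ht : t ∈ Ioc (0 : ℝ) (1 / 4)) (l : Fin 𝒜.n) :
    IsLinearMap ℝ (𝒜.reg1F l t) := by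
  refine ⟨fun α β => ?_, fun c β => ?_⟩
  · have e : (fun q => flat t ((α + β).1 l) q - (α + β).1 l q) = fun q =>
        (flat t (α.1 l) q - α.1 l q) + (flat t (β.1 l) q - β.1 l q) := by
      funext q
      by_cases hq : q ∈ ball (0 : E) 4
      · have e1 : flat t ((α + β).1 l) q = flat t (α.1 l) q + flat t (β.1 l) q := by
          simp only [flat, Submodule.coe_add, Pi.add_apply, map_add]
          exact integral_add (flat_integrable ht (Form.smooth α l).continuousOn hq)
            (flat_integrable ht (Form.smooth β l).continuousOn hq)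
        rw [e1, Submodule.coe_add, Pi.add_apply, Pi.add_apply]
        abel
      · simp only [flat_zero_RFlat t l _ hq, sub_self, add_zero]
    rw [reg1F, reg1F, reg1F, e,
      ext_add l (by norm_num) (isLoc_flat ht l α) (isLoc_flat ht l β)]
    abel
  · have e : (fun q => flat t ((c • β).1 l) q - (c • β).1 l q) = fun q =>
        c • (flat t (β.1 l) q - β.1 l q) := by
      funext q
      simp only [flat, Submodule.coe_smul, Pi.smul_apply, map_smul, integral_smul, smul_sub]
    rw [reg1F, reg1F, e, ext_smul l (by norm_num) (isLoc_flat ht l β), smul_add]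

theorem reg1_apply {t : ℝ} (ht : t ∈ Ioc (0 : ℝ) (1 / 4)) (l : Fin 𝒜.n) (β : 𝒜.Form) :
    𝒜.reg1 l t β = β + 𝒜.ext l fun q => flat t (β.1 l) q - β.1 l q := by
  rw [reg1, dif_pos (reg1F_lin ht l)]
  rfl

theorem reg1_self {t : ℝ} (ht : t ∈ Ioc (0 : ℝ) (1 / 4)) (l : Fin 𝒜.n) (β : 𝒜.Form) (q : E) :
    (𝒜.reg1 l t β).1 l q = flat t (β.1 l) q := by
  rw [reg1_apply ht, Submodule.coe_add, Pi.add_apply, Pi.add_apply,
    ext_self l (by norm_num) (isLoc_flat ht l β), add_sub_cancel]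

theorem reg1_in {t : ℝ} (ht : t ∈ Ioc (0 : ℝ) (1 / 4)) (l j : Fin 𝒜.n) (β : 𝒜.Form) {q : E}
    (hq : q ∈ 𝒜.O j l) : (𝒜.reg1 l t β).1 j q =
      pullL (fderiv ℝ (𝒜.τ j l) q) (flat t (β.1 l) (𝒜.τ j l q)) := by
  rw [reg1_apply ht, Submodule.coe_add, Pi.add_apply, Pi.add_apply,
    ext_val l (by norm_num) (isLoc_flat ht l β), extF, if_pos hq, map_sub, ← Form.compat β j l hq,
    add_sub_cancel]

theorem reg1_out {t : ℝ} (ht : t ∈ Ioc (0 : ℝ) (1 / 4)) (l j : Fin 𝒜.n) (β : 𝒜.Form) {q : E}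
    (hq : q ∉ 𝒜.O j l) : (𝒜.reg1 l t β).1 j q = β.1 j q := by
  rw [reg1_apply ht, Submodule.coe_add, Pi.add_apply, Pi.add_apply,
    ext_val l (by norm_num) (isLoc_flat ht l β), extF, if_neg hq, add_zero]

theorem reg1_conv {t : ℝ} (ht : t ∈ Ioc (0 : ℝ) (1 / 4)) (j : Fin 𝒜.n) (β : 𝒜.Form) {q : E}
    (hq : q ∈ ball (0 : E) 3) : (𝒜.reg1 j t β).1 j q = ∫ x, rho t (x - q) • β.1 j x := by
  rw [reg1_self ht, flat_conv ht.1 _ hq]

end Atlas

end

end Vale.Agent.P204
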