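import Vale.Agent.P204.R.Avg1
import Vale.Agent.P204.R.AvgC
import Vale.Agent.P204.R.Diff

/-!
P204 R/Jet. Jet bounds for operators of the class `Avg`.
Plan: take `F : Fl r'` with `r < r' < 4`; near `p ∈ closedBall 0 r ⊆ ball 0 r'` the chart value agrees with `F.op ..`
(`SJB.congr`, `ball 0 r' ∈ 𝓝 p`). `sjet`: `op_sjb` with `pb_jb`, resp. `op_ck` (`Am_val`; `(Am β).1 j = fun x => pm ..` by `rfl`) and
`ck_jb`. `small`: `op pb s q - s q = op (pb - id) s q + ∫ v, (s (Ψ (t • v, q)) - s q)`; first term `op_sjb` with `σ = 1`,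
second term `sjb_pint` with `jb_comp_sub` (`W = ball 0 r'`, `near`), `SJB.add` (`op_smooth`, `contDiffOn_pint`).
-/

namespace Vale.Agent.P204

open scoped ContDiff Topology
open Metric MeasureTheory Set Filter

noncomputable section

theorem Fl.diff_RJet {r : ℝ} (F : Fl r) (hr : r < 4) (k : ℕ) : ∃ C ≥ 1, ∀ᶠ t in 𝓝[>] (0 : ℝ),
    ∀ s : E → Bil, ContDiffOn ℝ ∞ s (ball 0 4) → ∀ p ∈ ball (0 : E) r, ∀ M : ℝ,
    (∀ q ∈ closedBall p (C * t), JB s (k + 1) q M) →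
      ContDiffAt ℝ ∞ (fun q => ∫ v, (s (F.Ψ (t • v, q)) - s q) ∂F.P) p ∧
      SJB (fun q => ∫ v, (s (F.Ψ (t • v, q)) - s q) ∂F.P) k 1 p (C * t * M) := by
  obtain ⟨C₄, hC₄, h₄⟩ := jb_comp_sub k
  obtain ⟨C₅, hC₅, h₅⟩ := F.near k
  refine ⟨C₄ * C₅, one_le_mul_of_one_le_of_one_le hC₄ hC₅, ?_⟩
  filter_upwards [h₅, F.ev_ok, ev_le C₅ one_pos] with t h5 ok ht s hs p hp M hM
  have hc : ContDiff ℝ ∞ fun y : F.V × E => (t • y.1, y.2) :=
    (contDiff_fst.const_smul t).prodMk contDiff_snd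
  have hU : IsOpen ((fun y : F.V × E => (t • y.1, y.2)) ⁻¹' F.U) :=
    F.isOpen.preimage hc.continuous
  have hΨ : ContDiffOn ℝ ∞ (fun y : F.V × E => F.Ψ (t • y.1, y.2))
      ((fun y : F.V × E => (t • y.1, y.2)) ⁻¹' F.U) :=
    F.smooth.comp hc.contDiffOn fun y hy => hy
  have hΦ : ContDiffOn ℝ ∞ (fun y : F.V × E => s (F.Ψ (t • y.1, y.2)) - s y.2)
      ((fun y : F.V × E => (t • y.1, y.2)) ⁻¹' F.U) :=
    (hs.comp hΨ fun y hy => (F.maps _ hy).1).sub
      (hs.comp contDiffOn_snd fun y hy => (F.maps _ hy).2)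
  have hKW : closedBall (0 : F.V) 1 ×ˢ ball (0 : E) r ⊆
      (fun y : F.V × E => (t • y.1, y.2)) ⁻¹' F.U :=
    fun y hy => ok y.1 hy.1 y.2 (ball_subset_closedBall hy.2)
  refine ⟨(contDiffOn_pint F.P (isCompact_closedBall _ _) F.supp hU hΦ isOpen_ball hKW).contDiffAt
    (isOpen_ball.mem_nhds hp), ?_⟩
  have key := sjb_pint F.P (isCompact_closedBall _ _) F.supp hU hΦ isOpen_ball hKW hp
    (k := k) zero_le_one (b := fun _ => C₄ * C₅ * t * M) (integrable_const _) (by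
      filter_upwards [F.supp] with v hv
      have h1 := h₄ s (fun q => F.Ψ (t • v, q)) (ball 0 r) p (C₅ * t) M isOpen_ball hp
        (ball_subset_ball hr.le)
        (fun q hq => (F.maps _ (ok v hv q (ball_subset_closedBall hq))).1) hs
        (F.smooth.comp (contDiffOn_const.prodMk contDiffOn_id)
          fun q hq => ok v hv q (ball_subset_closedBall hq)) ht.2
        (h5 v hv p (ball_subset_closedBall hp)).2.1 fun q hq => hM q
          (closedBall_subset_closedBall (by nlinarith [mul_pos (by linarith : 0 < C₅) ht.1]) hq)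
      rw [JB_iff_SJB] at h1
      exact h1.mono le_rfl (le_of_eq (by ring)))
  simpa only [integral_const, probReal_univ, one_smul] using key

namespace Atlas

variable {𝒜 : Atlas} {L : ℝ → 𝒜.Form →ₗ[ℝ] 𝒜.Form} {j : Fin 𝒜.n}

theorem avg_regL (ls : List (Fin 𝒜.n)) (j : Fin 𝒜.n) : Avg (𝒜.regL ls) j := by
  induction ls with
  | nil => exact avg_id j
  | cons l ls ih => exact (avg_reg1 l j).comp ih

theorem Avg.sjet (h : Avg L j) (k : ℕ) {r : ℝ} (hr : r < 4) : ∃ C ≥ 1, ∀ᶠ t in 𝓝[>] (0 : ℝ),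
    ∀ β : 𝒜.Form, ∀ p ∈ closedBall (0 : E) r, ∀ σ ∈ Ioc (0 : ℝ) 1, ∀ M : ℝ,
    (∀ q ∈ closedBall p (C * t), SJB (β.1 j) k σ q M) →
      SJB ((L t β).1 j) k σ p (C * M) ∧ SJB ((cm (L t) β).1 j) k σ p (C * t * M) := by
  obtain ⟨F, hF⟩ := h ((r + 4) / 2) (by linarith)
  obtain ⟨C₁, hC₁, h₁⟩ := F.op_sjb k
  obtain ⟨C₂, hC₂, h₂⟩ := F.pb_jb k
  obtain ⟨C₃, hC₃, h₃⟩ := F.ck_jb (𝒜.J_smooth j) k
  refine ⟨C₁ * (C₂ + C₃), one_le_mul_of_one_le_of_one_le hC₁ (by linarith), ?_⟩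
  filter_upwards [hF, h₁, h₂, h₃, F.ev_ok, ev_le 0 one_pos] with t hF h1 h2 h3 ok ht β p hp σ hσ
    M hM
  have ht0 := ht.1
  have hp' : p ∈ ball (0 : E) ((r + 4) / 2) := closedBall_subset_ball (by linarith) hp
  have hn : ball (0 : E) ((r + 4) / 2) ∈ 𝓝 p := isOpen_ball.mem_nhds hp'
  have hM0 : 0 ≤ M := (hM p (mem_closedBall_self (by positivity))).nonneg
  have hM' : ∀ q ∈ closedBall p (C₁ * t), SJB (β.1 j) k σ q M := fun q hq => hM q
    (closedBall_subset_closedBall (mul_le_mul_of_nonneg_right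
      (le_mul_of_one_le_right (by linarith) (by linarith)) ht0.le) hq)
  have p1 : 0 ≤ C₁ * C₃ * M := by positivity
  have p2 : 0 ≤ C₁ * C₂ * t * M := by positivity
  constructor
  · refine ((h1 F.pb F.pb_smooth _ (Form.smooth β j) p hp' σ hσ C₂ M
      (fun v hv => (h2 v hv p (ball_subset_closedBall hp')).1) hM').mono le_rfl
      (by linarith)).congr ?_
    filter_upwards [hn] with q hq
    exact hF β q (ball_subset_closedBall hq)
  · refine ((h1 (F.ck (𝒜.J j)) (F.ck_smooth (𝒜.J_smooth j)) _ (Form.smooth β j) p hp' σ hσ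
      (C₃ * t) M (fun v hv => h3 v hv p (ball_subset_closedBall hp')) hM').mono le_rfl
      (by linarith)).congr ?_
    filter_upwards [hn] with q hq
    have hq' := ball_subset_closedBall hq
    rw [← ok.op_ck (𝒜.J_smooth j) (Form.smooth β j).continuousOn hq', ← hF β q hq']
    have e := hF (𝒜.Am β) q hq'
    exact congrArg (fun z => pm (𝒜.J j q) ((L t β).1 j q) - z) e

theorem Avg.small (h : Avg L j) (k : ℕ) {r : ℝ} (hr : r < 4) : ∃ C ≥ 1, ∀ᶠ t in 𝓝[>] (0 : ℝ),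
    ∀ β : 𝒜.Form, ∀ p ∈ closedBall (0 : E) r, ∀ M : ℝ,
    (∀ q ∈ closedBall p (C * t), JB (β.1 j) (k + 1) q M) →
      JB ((L t β - β).1 j) k p (C * t * M) := by
  obtain ⟨F, hF⟩ := h ((r + 4) / 2) (by linarith)
  obtain ⟨C₁, hC₁, h₁⟩ := F.op_sjb k
  obtain ⟨C₂, hC₂, h₂⟩ := F.pb_jb k
  obtain ⟨C₃, hC₃, h₃⟩ := F.diff_RJet (by linarith) k
  have h12 : C₁ ≤ C₁ * C₂ := le_mul_of_one_le_right (by linarith) hC₂
  refine ⟨C₁ * C₂ + C₃, by linarith, ?_⟩
  filter_upwards [hF, h₁, h₂, h₃, F.ev_ok, ev_le 0 one_pos] with t hF h1 h2 h3 ok ht β p hp M hM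
  have ht0 := ht.1
  have hp' : p ∈ ball (0 : E) ((r + 4) / 2) := closedBall_subset_ball (by linarith) hp
  have hn : ball (0 : E) ((r + 4) / 2) ∈ 𝓝 p := isOpen_ball.mem_nhds hp'
  have hN : ContDiffOn ℝ ∞ (fun y => F.pb y - ContinuousLinearMap.id ℝ Bil) F.U :=
    F.pb_smooth.sub contDiffOn_const
  have a1 := h1 _ hN _ (Form.smooth β j) p hp' 1 ⟨one_pos, le_rfl⟩ (C₂ * t) M
    (fun v hv => (h2 v hv p (ball_subset_closedBall hp')).2) fun q hq =>
      ((JB_iff_SJB _ _ _ _).1 (hM q (closedBall_subset_closedBall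
        (mul_le_mul_of_nonneg_right (by linarith) ht0.le) hq))).mono (Nat.le_succ k) le_rfl
  obtain ⟨a2, a3⟩ := h3 _ (Form.smooth β j) p hp' M fun q hq => hM q
    (closedBall_subset_closedBall (mul_le_mul_of_nonneg_right (by linarith) ht0.le) hq)
  have a4 := (ok.op_smooth hN (Form.smooth β j)).contDiffAt hn
  rw [JB_iff_SJB]
  refine ((SJB.add zero_le_one a4 a2 a1 a3).mono le_rfl (le_of_eq (by ring))).congr ?_
  filter_upwards [hn] with q hq
  have hq' := ball_subset_closedBall hq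
  have i1 := ok.op_int F.pb_smooth.continuousOn (Form.smooth β j).continuousOn hq'
  have i2 := ok.avg_int (Form.smooth β j).continuousOn hq'
  have e1 : F.op (fun y => F.pb y - ContinuousLinearMap.id ℝ Bil) t (β.1 j) q =
      F.op F.pb t (β.1 j) q - ∫ v, β.1 j (F.Ψ (t • v, q)) ∂F.P := by
    rw [Fl.op, Fl.op, ← integral_sub i1 i2]
    rfl
  have e2 : ∫ v, (β.1 j (F.Ψ (t • v, q)) - β.1 j q) ∂F.P =
      ∫ v, β.1 j (F.Ψ (t • v, q)) ∂F.P - β.1 j q := by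
    rw [integral_sub i2 (integrable_const _), integral_const, probReal_univ, one_smul]
  rw [e1, e2, ← hF β q hq', sub_add_sub_cancel]
  rfl

end Atlas

end

end Vale.Agent.P204
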