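import Vale.Agent.P204.R.AvgE

/-!
P204 R/L1. `L¹` bounds for operators of the class `Avg`.
Plan: `F : Fl r` from `h r hr`; `closedBall p ρ ⊆ closedBall 0 r`; `setIntegral_congr_fun`, `op_l1` with the kernels `pb`, `ck (J j)`
(`pb_jb 0`, `ck_jb 0`, `op_ck`, `Am_val`; `(Am β).1 j = fun x => pm ..` by `rfl`). Take `C = C₁ + 2 C₂ + 2 C₃` and enlarge the ball
(`setIntegral_mono_set`; `r + C t < 4` for small `t` by `ev_le`, forms are continuous on `ball 0 4`).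
-/

namespace Vale.Agent.P204

open scoped ContDiff Topology
open Metric MeasureTheory Set Filter

noncomputable section

namespace Atlas

variable {𝒜 : Atlas} {L : ℝ → 𝒜.Form →ₗ[ℝ] 𝒜.Form} {j : Fin 𝒜.n}

theorem Avg.l1 (h : Avg L j) {r : ℝ} (hr : r < 4) : ∃ C ≥ 1, ∀ᶠ t in 𝓝[>] (0 : ℝ),
    ∀ (β : 𝒜.Form) (p : E) (ρ : ℝ), 0 ≤ ρ → ‖p‖ + ρ ≤ r →
    ∫ x in closedBall p ρ, ‖(L t β).1 j x‖ ≤ C * ∫ x in closedBall p (ρ + C * t), ‖β.1 j x‖ ∧
    ∫ x in closedBall p ρ, ‖(cm (L t) β).1 j x‖ ≤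
      C * t * ∫ x in closedBall p (ρ + C * t), ‖β.1 j x‖ := by
  obtain ⟨F, hF⟩ := h r hr
  obtain ⟨C₁, hC₁, h1⟩ := F.op_l1 hr
  obtain ⟨C₂, hC₂, h2⟩ := F.pb_jb 0
  obtain ⟨C₃, hC₃, h3⟩ := F.ck_jb (𝒜.J_smooth j) 0
  refine ⟨C₁ + 2 * C₂ + 2 * C₃, by linarith, ?_⟩
  filter_upwards [hF, h1, h2, h3, F.ev_ok,
    ev_le (C₁ + 2 * C₂ + 2 * C₃) (c := (4 - r) / 2) (by linarith)] with t hF h1 h2 h3 hok ht
  intro β p ρ hρ hp
  have hsub : closedBall p ρ ⊆ closedBall (0 : E) r := Fl.sub_RAvgE hp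
  have hβ : ContinuousOn (β.1 j) (ball 0 4) := (Form.smooth β j).continuousOn
  have ht0 : 0 < t := ht.1
  have hbig : closedBall p (ρ + (C₁ + 2 * C₂ + 2 * C₃) * t) ⊆ ball (0 : E) 4 := by
    refine (Fl.sub_RAvgE (r := (r + 4) / 2) ?_).trans (cb_sub (by linarith))
    linarith [ht.2]
  have hint : IntegrableOn (fun x => ‖β.1 j x‖) (closedBall p (ρ + (C₁ + 2 * C₂ + 2 * C₃) * t)) :=
    ContinuousOn.integrableOn_compact (isCompact_closedBall _ _) (hβ.mono hbig).norm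
  have hmono : ∫ x in closedBall p (ρ + C₁ * t), ‖β.1 j x‖ ≤
      ∫ x in closedBall p (ρ + (C₁ + 2 * C₂ + 2 * C₃) * t), ‖β.1 j x‖ := by
    refine setIntegral_mono_set hint (Eventually.of_forall fun x => norm_nonneg _)
      (LE.le.eventuallyLE (closedBall_subset_closedBall ?_))
    nlinarith
  have hnn : 0 ≤ ∫ x in closedBall p (ρ + C₁ * t), ‖β.1 j x‖ :=
    integral_nonneg fun x => norm_nonneg _
  constructor
  · have e1 : ∫ x in closedBall p ρ, ‖(L t β).1 j x‖ =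
        ∫ x in closedBall p ρ, ‖F.op F.pb t (β.1 j) x‖ :=
      setIntegral_congr_fun measurableSet_closedBall fun x hx => by
        simp only [hF β x (hsub hx)]
    rw [e1]
    have b1 := h1 F.pb (β.1 j) hβ C₂ (by linarith) (fun v hv q hq => by
      have := (h2 v hv q hq).1 0 le_rfl
      rwa [norm_iteratedFDeriv_zero] at this) p ρ hρ hp
    refine b1.trans ?_
    exact mul_le_mul (by linarith) hmono hnn (by linarith)
  · have e1 : ∫ x in closedBall p ρ, ‖(cm (L t) β).1 j x‖ =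
        ∫ x in closedBall p ρ, ‖F.op (F.ck (𝒜.J j)) t (β.1 j) x‖ :=
      setIntegral_congr_fun measurableSet_closedBall fun x hx => by
        have e2 := hok.op_ck (𝒜.J_smooth j) hβ (hsub hx)
        have e3 : (cm (L t) β).1 j x = (𝒜.Am (L t β)).1 j x - (L t (𝒜.Am β)).1 j x := rfl
        have e4 : (𝒜.Am β).1 j = fun x => pm (𝒜.J j x) (β.1 j x) := rfl
        simp only [e3, Am_val, hF β x (hsub hx), hF (𝒜.Am β) x (hsub hx), e4, e2]
    rw [e1]
    have b1 := h1 (F.ck (𝒜.J j)) (β.1 j) hβ (C₃ * t) (by positivity) (fun v hv q hq => by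
      have := (h3 v hv q hq) 0 le_rfl
      rwa [norm_iteratedFDeriv_zero] at this) p ρ hρ hp
    refine b1.trans ?_
    refine mul_le_mul (by nlinarith) hmono hnn (by positivity)

end Atlas

end

end Vale.Agent.P204
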