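import Vale.Agent.P204.R.Defs

/-!
P204 R/Near. Near-identity estimates for a family `F : Fl r`.
Plan: `near`, `pb_jb`, `ck_jb` come from `jb_param_small` (with `K = closedBall 0 r`) applied to
`Ψ - snd`, `pb - id`, `ck J`; at the parameter `0` the map is the identity (`F.zero`), so
`jet3_d Ψ (0, q) = id` by uniqueness of the derivative (`jet3_has`, `HasFDerivAt.unique`), `pullL id = id`
(`pullL_id`). For `‖v‖ ≤ 1`, `‖t • v‖ ≤ t ≤ δ` (`ev_le`). Jets of `Ψ (v, ·) = (Ψ (v, ·) - id) + id`: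
`SJB.add`-type argument, or `jb_param` on the compact `closedBall 0 δ ×ˢ K ⊆ U`; same for `pb`.
-/

namespace Vale.Agent.P204

open scoped ContDiff Topology
open Metric MeasureTheory Set Filter

noncomputable section

namespace Fl

variable {r : ℝ} (F : Fl r)

theorem has {v : F.V} {q : E} (h : (v, q) ∈ F.U) :
    HasFDerivAt (fun q => F.Ψ (v, q)) (jet3_d F.Ψ (v, q)) q := jet3_has F.isOpen F.smooth h

theorem pb_smooth : ContDiffOn ℝ ∞ F.pb F.U :=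
  contDiff_pullL.comp_contDiffOn (jet3_smooth F.isOpen F.smooth)

theorem ck_smooth {J : E → End} (hJ : ContDiffOn ℝ ∞ J (ball 0 4)) :
    ContDiffOn ℝ ∞ (F.ck J) F.U :=
  ((contDiff_pm.comp_contDiffOn (hJ.comp contDiffOn_snd fun y hy => (F.maps y hy).2)).clm_comp
    F.pb_smooth).sub (F.pb_smooth.clm_comp
      (contDiff_pm.comp_contDiffOn (hJ.comp F.smooth fun y hy => (F.maps y hy).1)))

theorem d_zero_RNear {q : E} (h : ((0 : F.V), q) ∈ F.U) :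
    jet3_d F.Ψ (0, q) = ContinuousLinearMap.id ℝ E := by
  refine (F.has h).unique ?_
  simp only [F.zero]
  exact hasFDerivAt_id q

theorem pb_zero_RNear {q : E} (h : ((0 : F.V), q) ∈ F.U) :
    F.pb (0, q) = ContinuousLinearMap.id ℝ Bil := by
  rw [pb, F.d_zero_RNear h]
  exact ContinuousLinearMap.ext pullL_id

theorem small_RNear {G : Type} [NormedAddCommGroup G] [NormedSpace ℝ G] {Φ : F.V × E → G}
    (hΦ : ContDiffOn ℝ ∞ Φ F.U) (h0 : ∀ q, ((0 : F.V), q) ∈ F.U → Φ (0, q) = 0) (k : ℕ) :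
    ∃ C ≥ 1, ∀ᶠ t in 𝓝[>] (0 : ℝ), (0 < t ∧ t ≤ 1) ∧ ∀ v ∈ closedBall (0 : F.V) 1,
    ∀ p ∈ closedBall (0 : E) r, (t • v, p) ∈ F.U ∧ SJB (fun q => Φ (t • v, q)) k 1 p (C * t) := by
  obtain ⟨C, hC, δ, hδ, h⟩ := jb_param_small F.isOpen hΦ (isCompact_closedBall (0 : E) r) F.sub h0 k
  refine ⟨C, hC, ?_⟩
  filter_upwards [ev_le 1 hδ, ev_le 1 one_pos] with t h1 h2
  rw [one_mul] at h1 h2
  refine ⟨h2, fun v hv p hp => ?_⟩
  have h3 : ‖t • v‖ ≤ t := by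
    rw [norm_smul, Real.norm_of_nonneg h1.1.le]
    exact mul_le_of_le_one_right h1.1.le (mem_closedBall_zero_iff.1 hv)
  have h4 := h _ (h3.trans h1.2) p hp
  exact ⟨h4.1, ((JB_iff_SJB ..).1 h4.2).mono le_rfl
    (mul_le_mul_of_nonneg_left h3 (zero_le_one.trans hC))⟩

theorem at_RNear {G : Type} [NormedAddCommGroup G] [NormedSpace ℝ G] {Φ : F.V × E → G}
    (hΦ : ContDiffOn ℝ ∞ Φ F.U) {v : F.V} {p : E} (h : (v, p) ∈ F.U) :
    ContDiffAt ℝ ∞ (fun q => Φ (v, q)) p :=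
  (hΦ.contDiffAt (F.isOpen.mem_nhds h)).comp p (contDiffAt_const.prodMk contDiffAt_id)

theorem near (k : ℕ) : ∃ C ≥ 1, ∀ᶠ t in 𝓝[>] (0 : ℝ), ∀ v ∈ closedBall (0 : F.V) 1,
    ∀ p ∈ closedBall (0 : E) r, (t • v, p) ∈ F.U ∧
      JB (fun q => F.Ψ (t • v, q) - q) k p (C * t) ∧ ‖F.Ψ (t • v, p) - p‖ ≤ C * t ∧
      ‖jet3_d F.Ψ (t • v, p) - ContinuousLinearMap.id ℝ E‖ ≤ C * t ∧
      ∀ i, 1 ≤ i → i ≤ k → ‖iteratedFDeriv ℝ i (fun q => F.Ψ (t • v, q)) p‖ ≤ C := by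
  obtain ⟨C, hC, h⟩ := F.small_RNear (F.smooth.sub contDiffOn_snd)
    (fun q _ => by rw [F.zero, sub_self]) (k + 1)
  refine ⟨C + 1, by linarith, h.mono fun t ⟨ht, h⟩ v hv p hp => ?_⟩
  obtain ⟨h1, h2⟩ := h v hv p hp
  have h3 : C * t ≤ (C + 1) * t := mul_le_mul_of_nonneg_right (by linarith) ht.1.le
  have h4 : C * t ≤ C := mul_le_of_le_one_right (by linarith) ht.2
  have h5 : fderiv ℝ (fun q => F.Ψ (t • v, q) - q) p =
      jet3_d F.Ψ (t • v, p) - ContinuousLinearMap.id ℝ E := ((F.has h1).sub (hasFDerivAt_id p)).fderiv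
  refine ⟨h1, (JB_iff_SJB ..).2 (h2.mono k.le_succ h3), h2.norm_le.trans h3, ?_, fun i hi hik => ?_⟩
  · rw [← h5]
    exact ((JB_iff_SJB ..).1 ((JB_iff_SJB ..).2 h2).fderiv).norm_le.trans h3
  · obtain ⟨n, rfl⟩ := Nat.exists_eq_add_of_le' hi
    have h6 := F.at_RNear (F.smooth.sub contDiffOn_snd) h1
    have e : fderiv ℝ (fun q => F.Ψ (t • v, q)) =ᶠ[𝓝 p] fun x =>
        fderiv ℝ (fun q => F.Ψ (t • v, q) - q) x + ContinuousLinearMap.id ℝ E := by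
      filter_upwards [(Continuous.prodMk_right (t • v)).continuousAt.preimage_mem_nhds
        (F.isOpen.mem_nhds h1)] with x hx
      have e1 : fderiv ℝ (fun q => F.Ψ (t • v, q) - q) x = jet3_d F.Ψ (t • v, x) -
          ContinuousLinearMap.id ℝ E := ((F.has hx).sub (hasFDerivAt_id x)).fderiv
      rw [e1, (F.has hx).fderiv, sub_add_cancel]
    have h7 := (((JB_iff_SJB ..).1 ((JB_iff_SJB ..).2 h2).fderiv).add zero_le_one
      (h6.fderiv_right (m := ∞) le_rfl) contDiffAt_const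
      (SJB_const (ContinuousLinearMap.id ℝ E) k zero_le_one p)).congr e n (by omega)
    rw [one_pow, one_mul, norm_iteratedFDeriv_fderiv] at h7
    linarith [ContinuousLinearMap.norm_id_le (𝕜 := ℝ) (E := E)]

theorem ev_ok : ∀ᶠ t in 𝓝[>] (0 : ℝ), F.Ok t := by
  obtain ⟨C, -, h⟩ := F.near 0
  exact h.mono fun t h v hv p hp => (h v hv p hp).1

theorem pb_jb (k : ℕ) : ∃ C ≥ 1, ∀ᶠ t in 𝓝[>] (0 : ℝ), ∀ v ∈ closedBall (0 : F.V) 1,
    ∀ p ∈ closedBall (0 : E) r, JB (fun q => F.pb (t • v, q)) k p C ∧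
      JB (fun q => F.pb (t • v, q) - ContinuousLinearMap.id ℝ Bil) k p (C * t) := by
  have hs : ContDiffOn ℝ ∞ (fun y => F.pb y - ContinuousLinearMap.id ℝ Bil) F.U :=
    F.pb_smooth.sub contDiffOn_const
  obtain ⟨C, hC, h⟩ := F.small_RNear hs (fun q hq => by rw [F.pb_zero_RNear hq, sub_self]) k
  refine ⟨C + 1, by linarith, h.mono fun t ⟨ht, h⟩ v hv p hp => ?_⟩
  obtain ⟨h1, h2⟩ := h v hv p hp
  have h3 : C * t ≤ (C + 1) * t := mul_le_mul_of_nonneg_right (by linarith) ht.1.le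
  have h4 : C * t ≤ C := mul_le_of_le_one_right (by linarith) ht.2
  refine ⟨(JB_iff_SJB ..).2 ?_, (JB_iff_SJB ..).2 (h2.mono le_rfl h3)⟩
  have h5 := h2.add zero_le_one (F.at_RNear hs h1) contDiffAt_const
    (SJB_const (ContinuousLinearMap.id ℝ Bil) k zero_le_one p)
  simp only [sub_add_cancel] at h5
  exact h5.mono le_rfl (add_le_add h4 ContinuousLinearMap.norm_id_le)

theorem ck_jb {J : E → End} (hJ : ContDiffOn ℝ ∞ J (ball 0 4)) (k : ℕ) :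
    ∃ C ≥ 1, ∀ᶠ t in 𝓝[>] (0 : ℝ), ∀ v ∈ closedBall (0 : F.V) 1,
    ∀ p ∈ closedBall (0 : E) r, JB (fun q => F.ck J (t • v, q)) k p (C * t) := by
  obtain ⟨C, hC, h⟩ := F.small_RNear (F.ck_smooth hJ) (fun q hq => by
    rw [ck, F.pb_zero_RNear hq, F.zero, ContinuousLinearMap.comp_id, ContinuousLinearMap.id_comp,
      sub_self]) k
  exact ⟨C, hC, h.mono fun t h v hv p hp => (JB_iff_SJB ..).2 (h.2 v hv p hp).2⟩

end Fl

end

end Vale.Agent.P204
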