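import Vale.Agent.P204.R.AvgE

/-!
P204 R/Pos0. Positivity for operators of the class `Avg`.
Plan: `(L t β).1 j p u₁ u₂ = ∫ v, β.1 j (Ψ (t • v, p)) (D u₁) (D u₂)`, `D = jet3_d Ψ (t • v, p)`
(`ContinuousLinearMap.integral_apply` twice, `op_int`), `‖D u - u‖ ≤ C t |C₁|` (`near 1`).
`pos0`: `C = C₀ (1 + |C₁|)`, `d = min 1 (δ / C₀)`; the statement of `near` also holds at `d t`
(`Tendsto.eventually`), so for `‖v‖ ≤ d` the point `Ψ (t • v, p) = Ψ ((d t) • (d⁻¹ • v), p)` lies in `closedBall p (δ t)`;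
the integrand is `≥ indicator (closedBall 0 d) M' - M`, `c = P (closedBall 0 d)`.
`lower`: `Φ = F.avg t φ`, `avg_est`, `avg_cont`.
-/

namespace Vale.Agent.P204

open scoped ContDiff Topology
open Metric MeasureTheory Set Filter

noncomputable section

theorem Fl.Ok.app_RPos0 {r t : ℝ} {F : Fl r} (h : F.Ok t) {s : E → Bil}
    (hs : ContinuousOn s (ball 0 4)) {q : E} (hq : q ∈ closedBall (0 : E) r) (u₁ u₂ : E) :
    Integrable (fun v => s (F.Ψ (t • v, q)) (jet3_d F.Ψ (t • v, q) u₁)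
      (jet3_d F.Ψ (t • v, q) u₂)) F.P ∧
    F.op F.pb t s q u₁ u₂ = ∫ v, s (F.Ψ (t • v, q)) (jet3_d F.Ψ (t • v, q) u₁)
      (jet3_d F.Ψ (t • v, q) u₂) ∂F.P := by
  have h1 := h.op_int F.pb_smooth.continuousOn hs hq
  obtain ⟨A, hA⟩ : ∃ A : Bil →L[ℝ] ℝ, ∀ b, A b = b u₁ u₂ :=
    ⟨(ContinuousLinearMap.apply ℝ ℝ u₂).comp (ContinuousLinearMap.apply ℝ Cov u₁), fun _ => rfl⟩
  have h2 := A.integrable_comp h1
  have h3 := A.integral_comp_comm h1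
  simp only [hA, Fl.pb, pullL_apply] at h2 h3
  exact ⟨h2, h3.symm⟩

theorem Fl.near_RPos0 {r : ℝ} (F : Fl r) (C₁ : ℝ) : ∃ C ≥ 1, ∀ᶠ t in 𝓝[>] (0 : ℝ),
    ∀ v ∈ closedBall (0 : F.V) 1, ∀ p ∈ closedBall (0 : E) r,
      F.Ψ (t • v, p) ∈ closedBall p (C * t) ∧ ∀ u, ‖u‖ ≤ C₁ →
        ‖jet3_d F.Ψ (t • v, p) u - u‖ ≤ C * t := by
  obtain ⟨C, hC, hn⟩ := F.near 1
  have h0 := abs_nonneg C₁
  refine ⟨C * (1 + |C₁|), one_le_mul_of_one_le_of_one_le hC (by linarith), ?_⟩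
  filter_upwards [hn, ev_le 1 one_pos] with t h1 h2 v hv p hp
  obtain ⟨-, -, h3, h4, -⟩ := h1 v hv p hp
  have h5 : 0 ≤ C * t := (norm_nonneg _).trans h3
  have h6 := mul_nonneg h5 h0
  refine ⟨mem_closedBall_iff_norm.2 (by linarith), fun u hu => ?_⟩
  have h7 := (jet3_d F.Ψ (t • v, p) - ContinuousLinearMap.id ℝ E).le_opNorm u
  have h8 := mul_le_mul h4 (hu.trans (le_abs_self C₁)) (norm_nonneg _) h5
  rw [sub_apply, ContinuousLinearMap.id_apply] at h7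
  linarith

namespace Atlas

variable {𝒜 : Atlas} {L : ℝ → 𝒜.Form →ₗ[ℝ] 𝒜.Form} {j : Fin 𝒜.n}

theorem Avg.pos0 (h : Avg L j) (C₁ : ℝ) {r : ℝ} (hr : r < 4) : ∃ C ≥ 1, ∀ δ > 0, ∃ c > 0,
    ∀ᶠ t in 𝓝[>] (0 : ℝ), ∀ β : 𝒜.Form, ∀ p ∈ closedBall (0 : E) r, ∀ u₁ u₂ : E,
    ‖u₁‖ ≤ C₁ → ‖u₂‖ ≤ C₁ → ∀ M M' : ℝ, 0 ≤ M → 0 ≤ M' →
    (∀ q ∈ closedBall p (C * t), ∀ u₁' u₂', Near (C * t) u₁ u₂ u₁' u₂' → -M ≤ β.1 j q u₁' u₂') →
    (∀ q ∈ closedBall p (δ * t), ∀ u₁' u₂', Near (C * t) u₁ u₂ u₁' u₂' →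
      M' - M ≤ β.1 j q u₁' u₂') → c * M' - M ≤ (L t β).1 j p u₁ u₂ := by
  obtain ⟨F, hF⟩ := h r hr
  obtain ⟨C, hC, hn⟩ := F.near_RPos0 C₁
  refine ⟨C, hC, fun δ hδ => ?_⟩
  have hC0 : 0 < C := by linarith
  obtain ⟨d, hdd⟩ : ∃ d, d = δ / C := ⟨_, rfl⟩
  have hd : 0 < d := by rw [hdd]; positivity
  have hCd : C * d = δ := by rw [hdd]; field_simp
  have htd : Tendsto (fun t : ℝ => d * t) (𝓝[>] 0) (𝓝[>] 0) := by
    refine tendsto_nhdsWithin_iff.2 ⟨?_, eventually_mem_nhdsWithin.mono fun t ht => mul_pos hd ht⟩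
    have h : Tendsto (fun t : ℝ => d * t) (𝓝 0) (𝓝 (d * 0)) := tendsto_id.const_mul d
    rw [mul_zero] at h
    exact h.mono_left nhdsWithin_le_nhds
  refine ⟨F.P.real (closedBall 0 d), F.pos d hd, ?_⟩
  filter_upwards [hF, hn, htd.eventually hn, F.ev_ok] with t h1 h2 h3 h4 β p hp u₁ u₂ hu₁ hu₂ M M'
    _ _ k1 k2
  obtain ⟨hI, hE⟩ := h4.app_RPos0 (Form.smooth β j).continuousOn hp u₁ u₂
  have hi : Integrable ((closedBall (0 : F.V) d).indicator fun _ => M') F.P :=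
    (integrable_const M').indicator measurableSet_closedBall
  have e : F.P.real (closedBall 0 d) * M' - M =
      ∫ v, ((closedBall (0 : F.V) d).indicator (fun _ => M') v - M) ∂F.P := by
    rw [integral_sub hi (integrable_const M), integral_indicator_const _ measurableSet_closedBall]
    simp
  rw [h1 β p hp, hE, e]
  refine integral_mono_ae (hi.sub (integrable_const M)) hI (F.supp.mono fun v hv => ?_)
  have h5 := h2 v hv p hp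
  have h6 : Near (C * t) u₁ u₂ _ _ := ⟨h5.2 u₁ hu₁, h5.2 u₂ hu₂⟩
  by_cases hvd : v ∈ closedBall (0 : F.V) d
  · have hv' : d⁻¹ • v ∈ closedBall (0 : F.V) 1 := by
      rw [mem_closedBall, dist_zero_right] at hvd ⊢
      rw [norm_smul, Real.norm_eq_abs, abs_of_pos (inv_pos.2 hd), inv_mul_le_iff₀ hd]
      linarith
    have e1 : (d * t) • d⁻¹ • v = t • v := by
      rw [smul_smul]
      congr 1
      field_simp
    have h7 := (h3 _ hv' p hp).1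
    rw [e1, ← mul_assoc, hCd] at h7
    simp only [indicator_of_mem hvd]
    exact k2 _ h7 _ _ h6
  · simp only [indicator_of_notMem hvd, zero_sub]
    exact k1 _ h5.1 _ _ h6

theorem Avg.lower (h : Avg L j) (C₁ : ℝ) {r : ℝ} (hr : r < 4) : ∃ C ≥ 1, ∃ c > 0,
    ∀ᶠ t in 𝓝[>] (0 : ℝ), ∀ φ : E → ℝ, Continuous φ → (∀ x, 0 ≤ φ x) → ∃ Φ : E → ℝ,
    ContinuousOn Φ (closedBall 0 r) ∧ (∀ x, 0 ≤ Φ x) ∧
    (∀ (β : 𝒜.Form) (b : Bil), ∀ x ∈ closedBall (0 : E) r,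
      (∀ q ∈ closedBall x (C * t), β.1 j q = φ q • b) → ∀ (u₁ u₂ : E) (m : ℝ), ‖u₁‖ ≤ C₁ →
      ‖u₂‖ ≤ C₁ → (∀ u₁' u₂', Near (C * t) u₁ u₂ u₁' u₂' → m ≤ b u₁' u₂') →
      m * Φ x ≤ (L t β).1 j x u₁ u₂) ∧
    ∀ (p : E) (ρ : ℝ), 0 ≤ ρ → ‖p‖ + ρ ≤ r →
      ∫ x in closedBall p ρ, Φ x ≤ 2 * ∫ x in closedBall p (ρ + C * t), φ x ∧
      (t / 2 ≤ ρ → c * ∫ x in closedBall p (t / 8), φ x ≤ ∫ x in closedBall p ρ, Φ x) := by
  obtain ⟨F, hF⟩ := h r hr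
  obtain ⟨C, hC, hn⟩ := F.near_RPos0 C₁
  obtain ⟨C', hC', c, hc, he⟩ := F.avg_est hr
  refine ⟨C + C', by linarith, c, hc, ?_⟩
  filter_upwards [hF, hn, he, F.ev_ok, ev_le 1 one_pos] with t h1 h2 h3 h4 h5 φ hφ hφ0
  have a1 : 0 ≤ C * t := mul_nonneg (by linarith) h5.1.le
  have a2 : 0 ≤ C' * t := mul_nonneg (by linarith) h5.1.le
  refine ⟨F.avg t φ, h4.avg_cont hφ.continuousOn, F.avg_nonneg t hφ0, ?_, fun p ρ hρ hp => ?_⟩
  · intro β b x hx k1 u₁ u₂ m hu₁ hu₂ k2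
    obtain ⟨hI, hE⟩ := h4.app_RPos0 (Form.smooth β j).continuousOn hx u₁ u₂
    rw [h1 β x hx, hE, Fl.avg, ← integral_const_mul]
    refine integral_mono_ae ((h4.avg_int hφ.continuousOn hx).const_mul m) hI
      (F.supp.mono fun v hv => ?_)
    have h6 := h2 v hv x hx
    have h7 := k2 _ _ ⟨(h6.2 u₁ hu₁).trans (by linarith), (h6.2 u₂ hu₂).trans (by linarith)⟩
    beta_reduce
    rw [k1 _ (closedBall_subset_closedBall (by linarith) h6.1), smul_apply, smul_apply, smul_eq_mul,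
      mul_comm m]
    exact mul_le_mul_of_nonneg_left h7 (hφ0 _)
  · obtain ⟨k1, k2⟩ := h3 φ hφ.continuousOn hφ0 p ρ hρ hp
    refine ⟨k1.trans (mul_le_mul_of_nonneg_left ?_ zero_le_two), k2⟩
    exact setIntegral_mono_set (hφ.continuousOn.integrableOn_compact (isCompact_closedBall _ _))
      (Eventually.of_forall hφ0) (closedBall_subset_closedBall (by linarith)).eventuallyLE

end Atlas

end

end Vale.Agent.P204
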