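import Vale.Agent.P204.R.Jet
import Vale.Agent.P204.R.Pos0
import Vale.Agent.P204.R.ConvP

/-!
P204 R/Pos1. Lower bound for the full regularisation of `φ • b` in chart `j`.
Plan: `RR t β = L (G (L' β))` (`RR_split`). `a` and (for `δ = 1/16`) `c₁` from `(avg_regL ls j).pos0 C₁ (r = 5/2)`; `b, c₂, Φ` from
`(avg_regL ls' j).lower (C₁ + 1) (r = 3)`; `g, c₃` from `reg1_pos`. For `q ∈ closedBall p (a t)`, `u'` near `u` within `a t ≤ 1`,
`x ∈ closedBall q t`: `(l - l') Φ x ≤ (L' β) x u'` (balls of radius `b t` around `x` lie in `closedBall p ((a+1+b) t)`).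
So `G L' β q u' ≥ l c₃/t^4 ∫_{B(q,t/2)} Φ - l' g/t^4 ∫_{B(q,t)} Φ`; `∫_{B(q,t)} Φ ≤ 2 ∫_{B(p,(a+1+b)t)} φ`, and for
`q ∈ closedBall p (t/16)`, `∫_{B(q,t/2)} Φ ≥ c₂ ∫_{B(p,t/16)} φ`. Apply `pos0` with `M = l' (2 g/t^4 ∫ ..)`,
`M' = l (c₃ c₂/t^4 ∫ ..)`; `C = a + 1 + b + 2 g`, `c = min (c₁ c₂ c₃) (1/16)`.
-/

namespace Vale.Agent.P204

open scoped ContDiff Topology
open Metric MeasureTheory Set Filter

noncomputable section

namespace Atlas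

variable {𝒜 : Atlas}

theorem sub_RPos1 {p q : E} {a b c : ℝ} (hq : q ∈ closedBall p a) (h : a + b ≤ c) :
    closedBall q b ⊆ closedBall p c :=
  closedBall_subset_closedBall' (by linarith [mem_closedBall.1 hq])

theorem mono_RPos1 {φ : E → ℝ} (h : Continuous φ) (h0 : ∀ x, 0 ≤ φ x) {s : Set E} {p : E} {ρ : ℝ}
    (hs : s ⊆ closedBall p ρ) : ∫ x in s, φ x ≤ ∫ x in closedBall p ρ, φ x :=
  setIntegral_mono_set (h.continuousOn.integrableOn_compact (isCompact_closedBall _ _))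
    (Eventually.of_forall h0) hs.eventuallyLE

theorem RR_pos1 (j : Fin 𝒜.n) (C₁ : ℝ) : ∃ C ≥ 1, ∃ c > 0, c ≤ 1 ∧ ∀ᶠ t in 𝓝[>] (0 : ℝ),
    ∀ β : 𝒜.Form, ∀ p ∈ closedBall (0 : E) (5 / 2), ∀ u₁ u₂ : E, ‖u₁‖ ≤ C₁ → ‖u₂‖ ≤ C₁ →
    ∀ (φ : E → ℝ) (b : Bil) (l l' : ℝ), Continuous φ → (∀ q, 0 ≤ φ q) → 0 ≤ l → 0 ≤ l' →
    (∀ q ∈ closedBall p (C * t), β.1 j q = φ q • b) →
    (∀ u₁' u₂', Near (C * t) u₁ u₂ u₁' u₂' → l - l' ≤ b u₁' u₂') →
      l * (c / t ^ 4 * ∫ q in closedBall p (c * t), φ q) -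
        l' * (C / t ^ 4 * ∫ q in closedBall p (C * t), φ q) ≤ (𝒜.RR t β).1 j p u₁ u₂ := by
  obtain ⟨ls, ls', hR⟩ := RR_split j
  obtain ⟨a, ha, h1⟩ := (avg_regL ls j).pos0 C₁ (r := 5 / 2) (by norm_num)
  obtain ⟨c₁, hc₁, h1⟩ := h1 (1 / 16) (by norm_num)
  obtain ⟨b, hb, c₂, hc₂, h2⟩ := (avg_regL ls' j).lower (C₁ + 1) (r := 3) (by norm_num)
  obtain ⟨g, hg, c₃, hc₃, h3⟩ := reg1_pos j
  obtain ⟨C, hC⟩ : ∃ C, C = a + 1 + b + 2 * g := ⟨_, rfl⟩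
  obtain ⟨c, hc⟩ : ∃ c, c = min (c₁ * (c₃ * c₂)) (1 / 16) := ⟨_, rfl⟩
  have c0 : 0 < c := by rw [hc]; positivity
  have c1 : c ≤ c₁ * (c₃ * c₂) := by rw [hc]; exact min_le_left _ _
  have c2 : c ≤ 1 / 16 := by rw [hc]; exact min_le_right _ _
  refine ⟨C, by linarith, c, c0, by linarith, ?_⟩
  filter_upwards [h1, h2, ev_le C (c := 1 / 4) (by norm_num)] with t k1 k2 ⟨ht, hCt⟩ β p hp u₁ u₂
    n1 n2 φ B l l' hφ hφ0 hl hl' e1 e2
  obtain ⟨Φ, f1, f2, f3, f4⟩ := k2 φ hφ hφ0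
  have ta : t ≤ a * t := le_mul_of_one_le_left ht.le ha
  have tb : t ≤ b * t := le_mul_of_one_le_left ht.le hb
  have tg : t ≤ g * t := le_mul_of_one_le_left ht.le hg
  have tC : C * t = a * t + t + b * t + 2 * (g * t) := by rw [hC]; ring
  have hp' := mem_closedBall_zero_iff.1 hp
  obtain ⟨I, hI⟩ : ∃ I, I = ∫ x in closedBall p (C * t), φ x := ⟨_, rfl⟩
  obtain ⟨I', hI'⟩ : ∃ I, I = ∫ x in closedBall p (1 / 16 * t), φ x := ⟨_, rfl⟩
  have I0 : 0 ≤ I := by rw [hI]; exact integral_nonneg hφ0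
  have I0' : 0 ≤ I' := by rw [hI']; exact integral_nonneg hφ0
  have key : ∀ q ∈ closedBall p (a * t), ∀ u₁' u₂', Near (a * t) u₁ u₂ u₁' u₂' →
      l * (c₃ / t ^ 4 * ∫ x in closedBall q (t / 2), Φ x) - l' * (g / t ^ 4 * (2 * I)) ≤
        (𝒜.reg1 j t (𝒜.regL ls' t β)).1 j q u₁' u₂' := fun q hq u₁' u₂' hu => by
    have q1 : closedBall q t ⊆ closedBall (0 : E) 3 :=
      (sub_RPos1 hq le_rfl).trans (sub_RPos1 hp (by linarith))
    have q2 : ‖q‖ ≤ 5 / 2 + a * t := mem_closedBall_zero_iff.1 (sub_RPos1 hp le_rfl hq)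
    refine le_trans ?_ (h3 t ⟨ht, by linarith⟩ _ q (mem_closedBall_zero_iff.2 (by linarith))
      u₁' u₂' Φ l l' (f1.mono q1) f2 hl hl' fun x hx => f3 β B x (q1 hx)
        (fun y hy => e1 y (sub_RPos1 (sub_RPos1 hq le_rfl hx) (by linarith) hy)) u₁' u₂' _
        (by linarith [hu.1, norm_le_norm_sub_add u₁' u₁])
        (by linarith [hu.2, norm_le_norm_sub_add u₂' u₂]) fun v₁ v₂ hv => e2 v₁ v₂
          ⟨by linarith [hu.1, hv.1, norm_sub_le_norm_sub_add_norm_sub v₁ u₁' u₁],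
            by linarith [hu.2, hv.2, norm_sub_le_norm_sub_add_norm_sub v₂ u₂' u₂]⟩)
    refine sub_le_sub_left (mul_le_mul_of_nonneg_left (mul_le_mul_of_nonneg_left ?_
      (by positivity)) hl') _
    refine (f4 q t ht.le (by linarith)).1.trans (mul_le_mul_of_nonneg_left ?_ zero_le_two)
    rw [hI]
    exact mono_RPos1 hφ hφ0 (sub_RPos1 hq (by linarith))
  have fin := k1 (𝒜.reg1 j t (𝒜.regL ls' t β)) p hp u₁ u₂ n1 n2 (l' * (g / t ^ 4 * (2 * I)))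
    (l * (c₃ / t ^ 4 * (c₂ * I'))) (by positivity) (by positivity)
    (fun q hq u₁' u₂' hu => by
      have : 0 ≤ l * (c₃ / t ^ 4 * ∫ x in closedBall q (t / 2), Φ x) :=
        mul_nonneg hl (mul_nonneg (by positivity) (integral_nonneg f2))
      linarith [key q hq u₁' u₂' hu])
    (fun q hq u₁' u₂' hu => by
      refine le_trans (sub_le_sub_right (mul_le_mul_of_nonneg_left (mul_le_mul_of_nonneg_left ?_
        (by positivity)) hl) _) (key q (closedBall_subset_closedBall (by linarith) hq) u₁' u₂' hu)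
      have q2 : ‖q‖ ≤ 5 / 2 + 1 / 16 * t := mem_closedBall_zero_iff.1 (sub_RPos1 hp le_rfl hq)
      refine le_trans (mul_le_mul_of_nonneg_left ?_ hc₂.le)
        ((f4 q (t / 2) (by linarith) (by linarith)).2 le_rfl)
      rw [hI']
      exact mono_RPos1 hφ hφ0 (sub_RPos1 (mem_closedBall_comm.1 hq) (by linarith)))
  rw [hR, ← hI]
  refine le_trans (sub_le_sub ?_ (mul_le_mul_of_nonneg_left ?_ hl')) fin
  · have m1 : ∫ x in closedBall p (c * t), φ x ≤ I' := by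
      rw [hI']
      exact mono_RPos1 hφ hφ0 (closedBall_subset_closedBall (mul_le_mul_of_nonneg_right c2 ht.le))
    have m0 : 0 ≤ ∫ x in closedBall p (c * t), φ x := integral_nonneg hφ0
    calc l * (c / t ^ 4 * ∫ x in closedBall p (c * t), φ x)
        ≤ l * (c₁ * (c₃ * c₂) / t ^ 4 * I') := by gcongr
      _ = _ := by ring
  · calc g / t ^ 4 * (2 * I) = 2 * g / t ^ 4 * I := by ring
      _ ≤ C / t ^ 4 * I := by gcongr; linarith

end Atlas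

end

end Vale.Agent.P204
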