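import Vale.Agent.P204.R.Jet
import Vale.Agent.P204.R.L1
import Vale.Agent.P204.R.Conv

/-!
P204 R/Smooth. Smoothing estimates for the full regularisation in chart `j`.
Plan: `RR t β = L (G (L' β))` (`RR_split`), `L = regL ls t`, `G = reg1 j t`, `L' = regL ls' t`; constants `a` from
`(avg_regL ls j).sjet k (r = 5/2)` (used with `σ = t`), `g` from `reg1_sjb`, `b` from `(avg_regL ls' j).l1 (r = 3)`.
For `q ∈ closedBall p (a t)` (`⊆ closedBall 0 (11/4)` for small `t`): `closedBall q (2t) ⊆ closedBall p ((a+2) t)`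
(`setIntegral_mono_set`, forms are continuous on `ball 0 4`), then `l1` at `ρ = (a+2) t`. With
`I = ∫ over closedBall p ((a+2+b) t)`: `SJB (G L' β) ≤ g b / t^4 I`, `SJB (cm G (L' β)) ≤ g b / t^3 I`,
`SJB (G (cm L' β)) ≤ g b t / t^4 I`. `cm (RR t) β = cm L (G L' β) + L (cm G (L' β)) + L (G (cm L' β))` (unfold `cm`, `map_sub`, `abel`),
`SJB.add` (`Form.contDiffAt`). Take `C = 3 a g b + a + 2 + b` and enlarge the ball (`C t ≤ 1/4`).
-/

namespace Vale.Agent.P204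

open scoped ContDiff Topology
open Metric MeasureTheory Set Filter

noncomputable section

namespace Atlas

variable {𝒜 : Atlas}

theorem sub_RSmooth {p q : E} {a b : ℝ} (hq : q ∈ closedBall p a) :
    closedBall q b ⊆ closedBall p (a + b) := by
  rw [add_comm]
  exact closedBall_subset_closedBall' (add_le_add_right (mem_closedBall.1 hq) b)

theorem mono_RSmooth (β : 𝒜.Form) (j : Fin 𝒜.n) {p : E} (hp : p ∈ closedBall (0 : E) (5 / 2))
    {ρ : ℝ} (hρ : ρ ≤ 1 / 4) {s : Set E} (hs : s ⊆ closedBall p ρ) :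
    ∫ x in s, ‖β.1 j x‖ ≤ ∫ x in closedBall p ρ, ‖β.1 j x‖ := by
  refine setIntegral_mono_set (ContinuousOn.integrableOn_compact (isCompact_closedBall _ _)
    ((Form.smooth β j).continuousOn.mono ?_).norm) (Eventually.of_forall fun _ => norm_nonneg _)
    hs.eventuallyLE
  exact (sub_RSmooth hp).trans (cb_sub (by linarith))

theorem RR_smooth (j : Fin 𝒜.n) (k : ℕ) : ∃ C ≥ 1, ∀ᶠ t in 𝓝[>] (0 : ℝ), ∀ β : 𝒜.Form,
    ∀ p ∈ closedBall (0 : E) (5 / 2),
    SJB ((𝒜.RR t β).1 j) k t p (C / t ^ 4 * ∫ x in closedBall p (C * t), ‖β.1 j x‖) ∧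
    SJB ((cm (𝒜.RR t) β).1 j) k t p (C / t ^ 3 * ∫ x in closedBall p (C * t), ‖β.1 j x‖) := by
  obtain ⟨ls, ls', hR⟩ := RR_split j
  obtain ⟨a, ha, h1⟩ := (avg_regL ls j).sjet k (r := 5 / 2) (by norm_num)
  obtain ⟨g, hg, h2⟩ := reg1_sjb j k
  obtain ⟨b, hb, h3⟩ := (avg_regL ls' j).l1 (r := 3) (by norm_num)
  have hagb : 0 < a * g * b := by positivity
  obtain ⟨C, hC⟩ : ∃ C, C = 3 * (a * g * b) + (a + 2 + b) := ⟨_, rfl⟩
  refine ⟨C, by linarith, ?_⟩
  filter_upwards [h1, h3, ev_le C (c := 1 / 4) (by norm_num)] with t k1 k3 ⟨ht, hCt⟩ β p hp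
  have t1 : (a + 2 + b) * t ≤ C * t := mul_le_mul_of_nonneg_right (by linarith) ht.le
  have ta : 0 < a * t := by positivity
  have tb : 0 < b * t := by positivity
  have t8 : t ∈ Ioc (0 : ℝ) (1 / 8) := ⟨ht, by linarith⟩
  have tσ : t ∈ Ioc (0 : ℝ) 1 := ⟨ht, by linarith⟩
  obtain ⟨I, hI⟩ : ∃ I, I = ∫ x in closedBall p (C * t), ‖β.1 j x‖ := ⟨_, rfl⟩
  have I0 : 0 ≤ I := by rw [hI]; exact integral_nonneg fun _ => norm_nonneg _
  rw [← hI]
  have l0 := k3 β p (a * t + 2 * t) (by linarith)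
    (by linarith [mem_closedBall_zero_iff.1 hp])
  have l1 : ∫ x in closedBall p (a * t + 2 * t + b * t), ‖β.1 j x‖ ≤ I := by
    rw [hI]
    exact mono_RSmooth β j hp hCt (closedBall_subset_closedBall (by linarith))
  have l2 := l0.1.trans (mul_le_mul_of_nonneg_left l1 (by linarith))
  have l3 := l0.2.trans (mul_le_mul_of_nonneg_left l1 tb.le)
  have key : ∀ (γ : 𝒜.Form) (B : ℝ), ∫ x in closedBall p (a * t + 2 * t), ‖γ.1 j x‖ ≤ B →
      ∀ q ∈ closedBall p (a * t), SJB ((𝒜.reg1 j t γ).1 j) k t q (g / t ^ 4 * B) ∧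
        SJB ((cm (𝒜.reg1 j t) γ).1 j) k t q (g / t ^ 3 * B) := fun γ B hB q hq => by
    have m1 := (mono_RSmooth γ j hp (by linarith) (sub_RSmooth hq)).trans hB
    have m2 := h2 t t8 γ q (closedBall_subset_closedBall (by linarith)
      (sub_RSmooth hp hq))
    exact ⟨m2.1.mono le_rfl (mul_le_mul_of_nonneg_left m1 (by positivity)),
      m2.2.mono le_rfl (mul_le_mul_of_nonneg_left m1 (by positivity))⟩
  have s1 := k1 _ p hp t tσ _ fun q hq => (key _ _ l2 q hq).1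
  have s2 := (k1 _ p hp t tσ _ fun q hq => (key _ _ l2 q hq).2).1
  have s3 := (k1 _ p hp t tσ _ fun q hq => (key _ _ l3 q hq).1).1
  have hp4 : p ∈ ball (0 : E) 4 := cb_sub (by norm_num) hp
  have e : cm (𝒜.RR t) β = cm (𝒜.regL ls t) (𝒜.reg1 j t (𝒜.regL ls' t β)) +
      𝒜.regL ls t (cm (𝒜.reg1 j t) (𝒜.regL ls' t β)) +
      𝒜.regL ls t (𝒜.reg1 j t (cm (𝒜.regL ls' t) β)) := by
    simp only [cm, hR, map_sub]
    abel
  rw [hR, e]
  refine ⟨s1.1.mono le_rfl ?_, (((s1.2.add ht.le (Form.contDiffAt _ j hp4) (Form.contDiffAt _ j hp4)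
    s2).add ht.le ((Form.contDiffAt _ j hp4).add (Form.contDiffAt _ j hp4))
    (Form.contDiffAt _ j hp4) s3).mono le_rfl ?_)⟩
  · calc a * (g / t ^ 4 * (b * I)) = a * g * b / t ^ 4 * I := by ring
      _ ≤ C / t ^ 4 * I := by gcongr; linarith
  · calc a * t * (g / t ^ 4 * (b * I)) + a * (g / t ^ 3 * (b * I)) + a * (g / t ^ 4 * (b * t * I))
        = 3 * (a * g * b) / t ^ 3 * I := by field_simp; ring
      _ ≤ C / t ^ 3 * I := by gcongr; linarith

end Atlas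

end

end Vale.Agent.P204
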