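import Vale.Agent.P204.R.Smooth
import Vale.Agent.P204.R.Pos1

/-!
P204 R/Unif: uniformity of the estimates in the chart.
-/

namespace Vale.Agent.P204

open scoped ContDiff Topology
open Metric MeasureTheory Set Filter

noncomputable section

theorem unif_t {Q : ℝ → Prop} (C : ℝ) (h : ∀ᶠ t in 𝓝[>] (0 : ℝ), Q t) :
    ∃ t₀ > 0, C * t₀ ≤ 1 / 4 ∧ ∀ t ∈ Ioc (0 : ℝ) t₀, Q t := by
  obtain ⟨u, hu, h1⟩ := mem_nhdsGT_iff_exists_Ioc_subset.1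
    (h.and (ev_le C (c := 1 / 4) (by norm_num)))
  exact ⟨u, hu, (h1 ⟨hu, le_rfl⟩).2.2, fun t ht => (h1 ht).1⟩

theorem unif_max {n : ℕ} (C : Fin n → ℝ) : ∃ A ≥ 1, ∀ j, C j ≤ A := by
  obtain ⟨A, hA⟩ := (finite_range C).bddAbove
  exact ⟨max A 1, le_max_right _ _, fun j => (hA ⟨j, rfl⟩).trans (le_max_left _ _)⟩

theorem unif_min {n : ℕ} (c : Fin n → ℝ) (h : ∀ j, 0 < c j) : ∃ a > 0, a ≤ 1 ∧ ∀ j, a ≤ c j := by
  obtain ⟨A, hA, h1⟩ := unif_max fun j => (c j)⁻¹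
  exact ⟨A⁻¹, by positivity, inv_le_one_of_one_le₀ hA, fun j => inv_le_of_inv_le₀ (h j) (h1 j)⟩

theorem unif_C {n : ℕ} {Q : Fin n → ℝ → ℝ → Prop}
    (mono : ∀ j C C' t, 0 < t → 1 ≤ C → C ≤ C' → C' * t ≤ 1 / 4 → Q j C t → Q j C' t)
    (h : ∀ j, ∃ C ≥ 1, ∀ᶠ t in 𝓝[>] (0 : ℝ), Q j C t) :
    ∃ C ≥ 1, ∃ t₀ > 0, C * t₀ ≤ 1 / 4 ∧ ∀ t ∈ Ioc (0 : ℝ) t₀, ∀ j, Q j C t := by
  choose C h1 h2 using h
  obtain ⟨A, hA, h3⟩ := unif_max C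
  refine ⟨A, hA, unif_t A ?_⟩
  filter_upwards [eventually_all.2 h2, ev_le A (c := 1 / 4) (by norm_num)] with t ht h4 j
  exact mono j _ _ t h4.1 (h1 j) (h3 j) h4.2 (ht j)

theorem unif_ball (p : E) {C C' t : ℝ} (ht : 0 < t) (h : C ≤ C') :
    closedBall p (C * t) ⊆ closedBall p (C' * t) :=
  closedBall_subset_closedBall (mul_le_mul_of_nonneg_right h ht.le)

theorem unif_int {f : E → ℝ} {p : E} {C C' t a a' : ℝ} (ht : 0 < t) (h : C ≤ C') (ha : a ≤ a')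
    (ha' : 0 ≤ a') (h0 : ∀ x, 0 ≤ f x) (hf : ContinuousOn f (closedBall p (C' * t))) :
    a * ∫ x in closedBall p (C * t), f x ≤ a' * ∫ x in closedBall p (C' * t), f x :=
  mul_le_mul ha (setIntegral_mono_set (hf.integrableOn_compact (isCompact_closedBall _ _))
    (Eventually.of_forall h0) (unif_ball p ht h).eventuallyLE)
    (integral_nonneg h0) ha'

namespace Atlas

variable {𝒜 : Atlas}

theorem Near.mono {r r' : ℝ} {u₁ u₂ u₁' u₂' : E} (h : Near r u₁ u₂ u₁' u₂') (hr : r ≤ r') :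
    Near r' u₁ u₂ u₁' u₂' := ⟨h.1.trans hr, h.2.trans hr⟩

theorem unif_cont (β : 𝒜.Form) (j : Fin 𝒜.n) {p : E} (hp : p ∈ closedBall (0 : E) 3) {ρ : ℝ}
    (hρ : ρ ≤ 1 / 4) : ContinuousOn (fun x => ‖β.1 j x‖) (closedBall p ρ) := by
  refine ((Form.smooth β j).continuousOn.mono fun x hx => ?_).norm
  rw [mem_closedBall, dist_eq_norm] at hx
  rw [mem_closedBall_zero_iff] at hp
  rw [mem_ball_zero_iff]
  linarith [norm_le_norm_sub_add x p]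

theorem avg_RR (j : Fin 𝒜.n) : Avg 𝒜.RR j := avg_regL _ j

theorem RR_jet (k : ℕ) : ∃ C ≥ 1, ∃ t₀ > 0, C * t₀ ≤ 1 / 4 ∧ ∀ t ∈ Ioc (0 : ℝ) t₀,
    ∀ (β : 𝒜.Form) j, ∀ p ∈ closedBall (0 : E) 3, ∀ M,
    (∀ q ∈ closedBall p (C * t), JB (β.1 j) k q M) → JB ((𝒜.RR t β).1 j) k p (C * M) := by
  obtain ⟨C, h1, t₀, h2, h3, h4⟩ := unif_C (Q := fun j C t => ∀ β : 𝒜.Form,
    ∀ p ∈ closedBall (0 : E) 3, ∀ M, (∀ q ∈ closedBall p (C * t), SJB (β.1 j) k 1 q M) →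
      SJB ((𝒜.RR t β).1 j) k 1 p (C * M))
    (fun j C C' t ht h1 h2 _ h β p hp M hM =>
      (h β p hp M fun q hq => hM q (unif_ball p ht h2 hq)).mono le_rfl
        (mul_le_mul_of_nonneg_right h2 (hM p (mem_closedBall_self (by nlinarith))).nonneg))
    fun j => by
      obtain ⟨C, h1, h2⟩ := (avg_RR j).sjet k (r := 3) (by norm_num)
      exact ⟨C, h1, h2.mono fun t h β p hp M hM => (h β p hp 1 ⟨one_pos, le_rfl⟩ M hM).1⟩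
  refine ⟨C, h1, t₀, h2, h3, fun t ht β j => ?_⟩
  simpa only [JB_iff_SJB] using h4 t ht j β

theorem RR_small (k : ℕ) : ∃ C ≥ 1, ∃ t₀ > 0, C * t₀ ≤ 1 / 4 ∧ ∀ t ∈ Ioc (0 : ℝ) t₀,
    ∀ (β : 𝒜.Form) j, ∀ p ∈ closedBall (0 : E) 3, ∀ M,
    (∀ q ∈ closedBall p (C * t), JB (β.1 j) (k + 1) q M) →
      JB ((𝒜.RR t β - β).1 j) k p (C * t * M) := by
  obtain ⟨C, h1, t₀, h2, h3, h4⟩ := unif_C (Q := fun j C t => ∀ β : 𝒜.Form,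
    ∀ p ∈ closedBall (0 : E) 3, ∀ M, (∀ q ∈ closedBall p (C * t), SJB (β.1 j) (k + 1) 1 q M) →
      SJB ((𝒜.RR t β - β).1 j) k 1 p (C * t * M))
    (fun j C C' t ht h1 h2 _ h β p hp M hM =>
      (h β p hp M fun q hq => hM q (unif_ball p ht h2 hq)).mono le_rfl
        (mul_le_mul_of_nonneg_right (mul_le_mul_of_nonneg_right h2 ht.le)
          (hM p (mem_closedBall_self (by nlinarith))).nonneg))
    fun j => by
      obtain ⟨C, h1, h2⟩ := (avg_RR j).small k (r := 3) (by norm_num)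
      exact ⟨C, h1, h2.mono fun t h => by simpa only [JB_iff_SJB] using h⟩
  refine ⟨C, h1, t₀, h2, h3, fun t ht β j => ?_⟩
  simpa only [JB_iff_SJB] using h4 t ht j β

theorem RR_smooth' (k : ℕ) : ∃ C ≥ 1, ∃ t₀ > 0, C * t₀ ≤ 1 / 4 ∧ ∀ t ∈ Ioc (0 : ℝ) t₀,
    ∀ j (β : 𝒜.Form), ∀ p ∈ closedBall (0 : E) (5 / 2),
    SJB ((𝒜.RR t β).1 j) k t p (C / t ^ 4 * ∫ x in closedBall p (C * t), ‖β.1 j x‖) ∧
    SJB ((cm (𝒜.RR t) β).1 j) k t p (C / t ^ 3 * ∫ x in closedBall p (C * t), ‖β.1 j x‖) := by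
  refine unif_C (fun j C C' t ht h1 h2 h3 h β p hp => ?_) fun j => RR_smooth j k
  have h4 := unif_cont β j (closedBall_subset_closedBall (by norm_num) hp) h3
  have h5 : 0 ≤ C' := by linarith
  exact ⟨(h β p hp).1.mono le_rfl (unif_int ht h2 (by gcongr) (by positivity)
      (fun _ => norm_nonneg _) h4),
    (h β p hp).2.mono le_rfl (unif_int ht h2 (by gcongr) (by positivity)
      (fun _ => norm_nonneg _) h4)⟩

theorem RR_pos0 (C₁ : ℝ) : ∃ C ≥ 1, ∀ δ > 0, ∃ c > 0, ∃ t₀ > 0, C * t₀ ≤ 1 / 4 ∧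
    ∀ t ∈ Ioc (0 : ℝ) t₀,
    ∀ (β : 𝒜.Form) j, ∀ p ∈ closedBall (0 : E) 3, ∀ u₁ u₂ : E, ‖u₁‖ ≤ C₁ → ‖u₂‖ ≤ C₁ →
    ∀ M M' : ℝ, 0 ≤ M → 0 ≤ M' →
    (∀ q ∈ closedBall p (C * t), ∀ u₁' u₂', Near (C * t) u₁ u₂ u₁' u₂' → -M ≤ β.1 j q u₁' u₂') →
    (∀ q ∈ closedBall p (δ * t), ∀ u₁' u₂', Near (C * t) u₁ u₂ u₁' u₂' →
      M' - M ≤ β.1 j q u₁' u₂') → c * M' - M ≤ (𝒜.RR t β).1 j p u₁ u₂ := by
  choose C h1 h2 using fun j => (avg_RR (𝒜 := 𝒜) j).pos0 C₁ (r := 3) (by norm_num)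
  obtain ⟨A, hA, h3⟩ := unif_max C
  refine ⟨A, hA, fun δ hδ => ?_⟩
  choose c h4 h5 using fun j => h2 j δ hδ
  obtain ⟨a, ha, -, h6⟩ := unif_min c h4
  refine ⟨a, ha, unif_t A ?_⟩
  filter_upwards [eventually_all.2 h5, eventually_mem_nhdsWithin] with t ht ht0 β j p hp u₁ u₂ n1
    n2 M M' hM hM' k1 k2
  have h7 : C j * t ≤ A * t := mul_le_mul_of_nonneg_right (h3 j) (le_of_lt ht0)
  refine le_trans ?_ (ht j β p hp u₁ u₂ n1 n2 M M' hM hM'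
    (fun q hq u u' hu => k1 q (closedBall_subset_closedBall h7 hq) u u' (hu.mono h7))
    fun q hq u u' hu => k2 q hq u u' (hu.mono h7))
  linarith [mul_le_mul_of_nonneg_right (h6 j) hM']

theorem RR_pos1' (C₁ : ℝ) : ∃ C ≥ 1, ∃ c > 0, ∃ t₀ > 0, C * t₀ ≤ 1 / 4 ∧ c ≤ 1 ∧
    ∀ t ∈ Ioc (0 : ℝ) t₀,
    ∀ (β : 𝒜.Form) j, ∀ p ∈ closedBall (0 : E) (5 / 2), ∀ u₁ u₂ : E, ‖u₁‖ ≤ C₁ → ‖u₂‖ ≤ C₁ →
    ∀ (φ : E → ℝ) (b : Bil) (l l' : ℝ), Continuous φ → (∀ q, 0 ≤ φ q) → 0 ≤ l → 0 ≤ l' →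
    (∀ q ∈ closedBall p (C * t), β.1 j q = φ q • b) →
    (∀ u₁' u₂', Near (C * t) u₁ u₂ u₁' u₂' → l - l' ≤ b u₁' u₂') →
      l * (c / t ^ 4 * ∫ q in closedBall p (c * t), φ q) -
        l' * (C / t ^ 4 * ∫ q in closedBall p (C * t), φ q) ≤ (𝒜.RR t β).1 j p u₁ u₂ := by
  choose C h1 c h2 _ h4 using fun j => RR_pos1 (𝒜 := 𝒜) j C₁
  obtain ⟨A, hA, h3⟩ := unif_max C
  obtain ⟨a, ha, ha1, h6⟩ := unif_min c h2
  obtain ⟨t₀, k0, k1, k2⟩ := unif_t A (eventually_all.2 h4)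
  refine ⟨A, hA, a, ha, t₀, k0, k1, ha1, fun t ht β j p hp u₁ u₂ n1 n2 φ b l l' c1 c2 hl hl' e1 e2 =>
    ?_⟩
  have ht0 := ht.1
  have h7 : C j * t ≤ A * t := mul_le_mul_of_nonneg_right (h3 j) ht0.le
  refine le_trans ?_ (k2 t ht j β p hp u₁ u₂ n1 n2 φ b l l' c1 c2 hl hl'
    (fun q hq => e1 q (closedBall_subset_closedBall h7 hq)) fun u u' hu => e2 u u' (hu.mono h7))
  have h8 := h2 j
  have h9 := h3 j
  have h10 := h6 j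
  exact sub_le_sub (mul_le_mul_of_nonneg_left (unif_int ht0 h10 (by gcongr) (by positivity) c2
      c1.continuousOn) hl)
    (mul_le_mul_of_nonneg_left (unif_int ht0 h9 (by gcongr) (by positivity) c2 c1.continuousOn) hl')

end Atlas

end

end Vale.Agent.P204
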